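import Mathlib

/-!
Block KER-1: the pushforward of Lebesgue measure on the upper half space under the function
`R(z,y) = (|z|^2+y^2)/(2y)` (radius of the sphere through `(z,y)` tangent to the plane at `0`).
-/

open MeasureTheory Set
open scoped ENNReal

namespace Vale.Agent.P006.KER

/-- area of a disc in the product `ℝ × ℝ` -/
lemma volume_disc (a b s : ℝ) :
    volume {p : ℝ × ℝ | (p.1 - a) ^ 2 + (p.2 - b) ^ 2 < s} = ENNReal.ofReal (Real.pi * s) := by
  have h := Complex.volume_preserving_equiv_real_prod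
  have hms : MeasurableSet {p : ℝ × ℝ | (p.1 - a) ^ 2 + (p.2 - b) ^ 2 < s} :=
    measurableSet_lt (by fun_prop) measurable_const
  rw [← h.measure_preimage hms.nullMeasurableSet]
  rcases le_or_gt s 0 with hs | hs
  · have : (⇑Complex.measurableEquivRealProd ⁻¹' {p : ℝ × ℝ | (p.1 - a) ^ 2 + (p.2 - b) ^ 2 < s})
        = ∅ := by
      ext w
      simp only [mem_preimage, mem_ofPred_eq, mem_empty_iff_false, iff_false, not_lt,
        Complex.measurableEquivRealProd_apply]
      nlinarith [sq_nonneg (w.re - a), sq_nonneg (w.im - b)]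
    rw [this, measure_empty, ENNReal.ofReal_of_nonpos]
    nlinarith [Real.pi_pos]
  · have : (⇑Complex.measurableEquivRealProd ⁻¹' {p : ℝ × ℝ | (p.1 - a) ^ 2 + (p.2 - b) ^ 2 < s})
        = Metric.ball (⟨a, b⟩ : ℂ) (Real.sqrt s) := by
      ext w
      simp only [mem_preimage, mem_ofPred_eq, Complex.measurableEquivRealProd_apply,
        Metric.mem_ball, Complex.dist_eq, Complex.norm_eq_sqrt_sq_add_sq, Complex.sub_re,
        Complex.sub_im]
      rw [Real.sqrt_lt_sqrt_iff (by positivity)]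
    rw [this, Complex.volume_ball, mul_comm, ENNReal.ofReal_mul Real.pi_pos.le,
      ← ENNReal.ofReal_pow (Real.sqrt_nonneg s), Real.sq_sqrt hs.le]
    congr 1
    rw [← NNReal.coe_real_pi, ENNReal.ofReal_coe_nnreal]

/-- the radius function -/
noncomputable def rad (x : ℝ) (p : ℝ × ℝ) : ℝ := (x ^ 2 + p.1 ^ 2 + p.2 ^ 2) / (2 * p.2)

lemma measurable_rad (x : ℝ) : Measurable (rad x) := by
  unfold rad; fun_prop

lemma rad_lt_iff {x ρ : ℝ} {p : ℝ × ℝ} (hp : 0 < p.2) :
    rad x p < ρ ↔ (p.1 - 0) ^ 2 + (p.2 - ρ) ^ 2 < ρ ^ 2 - x ^ 2 := by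
  unfold rad
  rw [div_lt_iff₀ (by positivity)]
  constructor <;> intro h <;> nlinarith

lemma rad_nonneg {x : ℝ} {p : ℝ × ℝ} (hp : 0 < p.2) : 0 ≤ rad x p := by
  unfold rad; positivity

lemma volume_rad_lt (x ρ : ℝ) :
    volume {p : ℝ × ℝ | 0 < p.2 ∧ rad x p < ρ} =
      if 0 < ρ then ENNReal.ofReal (Real.pi * (ρ ^ 2 - x ^ 2)) else 0 := by
  split_ifs with hρ
  · rw [← volume_disc 0 ρ]
    congr 1
    ext p
    simp only [mem_ofPred_eq]
    constructor
    · rintro ⟨h1, h2⟩
      exact (rad_lt_iff h1).1 h2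
    · intro h
      have hp : 0 < p.2 := by nlinarith [sq_nonneg (p.1 - 0), sq_nonneg p.2, sq_nonneg x]
      exact ⟨hp, (rad_lt_iff hp).2 h⟩
  · have : {p : ℝ × ℝ | 0 < p.2 ∧ rad x p < ρ} = ∅ := by
      ext p
      simp only [mem_ofPred_eq, mem_empty_iff_false, iff_false, not_and, not_lt]
      intro hp
      exact (not_lt.1 hρ).trans (rad_nonneg hp)
    rw [this, measure_empty]

/-- density of the pushforward -/
lemma lintegral_two_pi (a ρ : ℝ) (ha : 0 ≤ a) (hρ : a ≤ ρ) :
    ∫⁻ R in Ioo a ρ, ENNReal.ofReal (2 * Real.pi * R) = ENNReal.ofReal (Real.pi * (ρ ^ 2 - a ^ 2)) := by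
  rw [← ofReal_integral_eq_lintegral_ofReal]
  · congr 1
    rw [← integral_Ioc_eq_integral_Ioo, ← intervalIntegral.integral_of_le hρ,
      intervalIntegral.integral_const_mul, integral_id]
    ring
  · exact (Continuous.integrableOn_Icc (by fun_prop)).mono_set Ioo_subset_Icc_self
  · filter_upwards [ae_restrict_mem measurableSet_Ioo] with R hR
    have : 0 ≤ R := ha.trans hR.1.le
    positivity

/-- `map rad` of the half plane measure. -/
theorem map_rad (x : ℝ) :
    (volume.restrict {p : ℝ × ℝ | 0 < p.2}).map (rad x) =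
      (volume.restrict (Ioi |x|)).withDensity (fun R => ENNReal.ofReal (2 * Real.pi * R)) := by
  have hpos : MeasurableSet {p : ℝ × ℝ | 0 < p.2} := measurableSet_lt measurable_const (by fun_prop)
  have key : ∀ ρ : ℝ, (volume.restrict {p : ℝ × ℝ | 0 < p.2}).map (rad x) (Iio ρ) =
      if 0 < ρ then ENNReal.ofReal (Real.pi * (ρ ^ 2 - x ^ 2)) else 0 := by
    intro ρ
    rw [Measure.map_apply (measurable_rad x) measurableSet_Iio,
      Measure.restrict_apply ((measurable_rad x) measurableSet_Iio), ← volume_rad_lt]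
    congr 1
    ext p
    simp only [mem_inter_iff, mem_preimage, mem_Iio, mem_ofPred_eq]
    tauto
  refine Measure.ext_of_generateFrom_of_iUnion (range Iio) (fun n : ℕ => Iio (n : ℝ)) ?_ ?_ ?_ ?_ ?_ ?_
  · rw [← borel_eq_generateFrom_Iio]; exact BorelSpace.measurable_eq
  · exact isPiSystem_Iio
  · ext y
    simp only [mem_iUnion, mem_Iio, mem_univ, iff_true]
    exact exists_nat_gt y
  · intro n; exact ⟨n, rfl⟩
  · intro n
    rw [key]
    split_ifs <;> simp
  · rintro _ ⟨ρ, rfl⟩
    rw [key, withDensity_apply _ measurableSet_Iio, Measure.restrict_restrict measurableSet_Iio]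
    have hI : Iio ρ ∩ Ioi |x| = Ioo |x| ρ := by
      ext y; simp only [mem_inter_iff, mem_Iio, mem_Ioi, mem_Ioo]; tauto
    rw [hI]
    rcases le_or_gt |x| ρ with h | h
    · rw [lintegral_two_pi _ _ (abs_nonneg x) h, sq_abs]
      split_ifs with h0
      · rfl
      · have h1 : ρ = 0 := le_antisymm (not_lt.1 h0) ((abs_nonneg x).trans h)
        have h2 : |x| = 0 := le_antisymm (h1 ▸ h) (abs_nonneg x)
        have h3 : x = 0 := abs_eq_zero.1 h2
        simp [h1, h3]
    · rw [Ioo_eq_empty (by linarith), Measure.restrict_empty, lintegral_zero_measure]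
      split_ifs with h0
      · apply ENNReal.ofReal_of_nonpos
        have : ρ ^ 2 < |x| ^ 2 := by nlinarith
        rw [sq_abs] at this
        nlinarith [Real.pi_pos]
      · rfl

end Vale.Agent.P006.KER
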