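import Mathlib
import Vale.Agent.P006.KER.Sphere

/-!
Block KER-1: joint law of `(Re z, R(z,y))` under Lebesgue measure on the upper half space.
-/

open MeasureTheory Set
open scoped ENNReal

namespace Vale.Agent.P006.KER

/-- Lebesgue measure on `ℝ_{>0}` -/
noncomputable def posm : Measure ℝ := volume.restrict (Ioi (0 : ℝ))

instance : SFinite posm := by unfold posm; infer_instance

/-- Lebesgue measure `dz dy` on the upper half space `ℂ × (0,∞)` -/
noncomputable def hmeas : Measure (ℂ × ℝ) := (volume : Measure ℂ).prod posm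

/-- radius of the sphere tangent to the plane at `0` through `(z,y)` -/
noncomputable def R3 (p : ℂ × ℝ) : ℝ := (‖p.1‖ ^ 2 + p.2 ^ 2) / (2 * p.2)

lemma measurable_R3 : Measurable R3 := by unfold R3; fun_prop

/-- the target measure on `(x,R)` -/
noncomputable def sphm : Measure (ℝ × ℝ) :=
  ((volume : Measure (ℝ × ℝ)).restrict {q | |q.1| < q.2}).withDensity
    (fun q => ENNReal.ofReal (2 * Real.pi * q.2))

/-- measurable equivalence `ℂ × ℝ ≃ ℝ × (ℝ × ℝ)` -/
noncomputable def eqv : ℂ × ℝ ≃ᵐ ℝ × (ℝ × ℝ) :=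
  (Complex.measurableEquivRealProd.prodCongr (MeasurableEquiv.refl ℝ)).trans
    MeasurableEquiv.prodAssoc

lemma eqv_apply (p : ℂ × ℝ) : eqv p = (p.1.re, (p.1.im, p.2)) := rfl

lemma eqv_mp : MeasurePreserving eqv hmeas ((volume : Measure ℝ).prod
    ((volume : Measure ℝ).prod posm)) := by
  have h1 : MeasurePreserving (Complex.measurableEquivRealProd.prodCongr (MeasurableEquiv.refl ℝ))
      hmeas (((volume : Measure ℝ).prod (volume : Measure ℝ)).prod posm) :=
    Complex.volume_preserving_equiv_real_prod.prod (MeasurePreserving.id posm)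
  have h2 := measurePreserving_prodAssoc (volume : Measure ℝ) (volume : Measure ℝ) posm
  exact h2.comp h1

lemma prod_posm : (volume : Measure ℝ).prod posm = volume.restrict {p : ℝ × ℝ | 0 < p.2} := by
  have h : (volume : Measure ℝ).prod posm =
      ((volume : Measure ℝ).restrict univ).prod ((volume : Measure ℝ).restrict (Ioi 0)) := by
    rw [Measure.restrict_univ]; rfl
  rw [h, Measure.prod_restrict, ← Measure.volume_eq_prod]
  congr 1
  ext p
  simp

theorem joint_law : hmeas.map (fun p => (p.1.re, R3 p)) = sphm := by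
  have hg : Measurable (fun q : ℝ × (ℝ × ℝ) => (q.1, rad q.1 q.2)) := by
    unfold rad; fun_prop
  have hcomp : (fun p : ℂ × ℝ => (p.1.re, R3 p)) =
      (fun q : ℝ × (ℝ × ℝ) => (q.1, rad q.1 q.2)) ∘ eqv := by
    funext p
    simp only [Function.comp_apply, eqv_apply, R3, rad]
    rw [← Complex.normSq_eq_norm_sq, Complex.normSq_apply]
    congr 3
    ring
  rw [hcomp, ← Measure.map_map hg eqv.measurable, eqv_mp.map_eq, prod_posm]
  ext s hs
  rw [Measure.map_apply hg hs, Measure.prod_apply (hg hs)]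
  have hset : MeasurableSet {q : ℝ × ℝ | |q.1| < q.2} :=
    measurableSet_lt (by fun_prop) (by fun_prop)
  have h1 : ∀ x : ℝ, (volume.restrict {p : ℝ × ℝ | 0 < p.2})
      (Prod.mk x ⁻¹' ((fun q : ℝ × (ℝ × ℝ) => (q.1, rad q.1 q.2)) ⁻¹' s)) =
      ∫⁻ R, (s ∩ {q : ℝ × ℝ | |q.1| < q.2}).indicator
        (fun q => ENNReal.ofReal (2 * Real.pi * q.2)) (x, R) := by
    intro x
    have hx : MeasurableSet (Prod.mk x ⁻¹' s) := measurable_prodMk_left hs
    have e1 : (Prod.mk x ⁻¹' ((fun q : ℝ × (ℝ × ℝ) => (q.1, rad q.1 q.2)) ⁻¹' s)) =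
        rad x ⁻¹' (Prod.mk x ⁻¹' s) := rfl
    rw [e1, ← Measure.map_apply (measurable_rad x) hx, map_rad, withDensity_apply _ hx,
      Measure.restrict_restrict hx, ← lintegral_indicator (hx.inter measurableSet_Ioi)]
    apply lintegral_congr
    intro R
    by_cases h : (x, R) ∈ s ∩ {q : ℝ × ℝ | |q.1| < q.2}
    · rw [indicator_of_mem h, indicator_of_mem]
      exact ⟨h.1, h.2⟩
    · rw [indicator_of_notMem h, indicator_of_notMem]
      intro h'
      exact h ⟨h'.1, h'.2⟩
  simp_rw [h1]
  rw [sphm, withDensity_apply _ hs, Measure.restrict_restrict hs,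
    ← lintegral_indicator (hs.inter hset), Measure.volume_eq_prod, lintegral_prod]
  exact ((Measurable.indicator (by fun_prop) (hs.inter hset))).aemeasurable

/-- rotation in the horizontal plane preserves `hmeas` -/
lemma rot_mp (u : Circle) :
    MeasurePreserving (fun p : ℂ × ℝ => ((u : ℂ) * p.1, p.2)) hmeas hmeas := by
  have h1 : MeasurePreserving (fun z : ℂ => (u : ℂ) * z) volume volume := by
    have := (rotation u).measurePreserving
    exact this
  exact h1.prod (MeasurePreserving.id posm)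

lemma R3_rot (u : Circle) (p : ℂ × ℝ) : R3 ((u : ℂ) * p.1, p.2) = R3 p := by
  simp [R3, Circle.norm_coe]

theorem joint_law_rot (u : Circle) :
    hmeas.map (fun p => (((u : ℂ) * p.1).re, R3 p)) = sphm := by
  have hg : Measurable (fun p : ℂ × ℝ => (p.1.re, R3 p)) :=
    (Complex.measurable_re.comp measurable_fst).prodMk measurable_R3
  have hcomp : (fun p : ℂ × ℝ => (((u : ℂ) * p.1).re, R3 p)) =
      (fun p : ℂ × ℝ => (p.1.re, R3 p)) ∘ (fun p : ℂ × ℝ => ((u : ℂ) * p.1, p.2)) := by
    funext p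
    simp only [Function.comp_apply, R3_rot]
  rw [hcomp, ← Measure.map_map hg (rot_mp u).measurable, (rot_mp u).map_eq, joint_law]

end Vale.Agent.P006.KER
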