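import Mathlib
import Vale.Agent.P006.KER.Joint

/-!
Block KER-1: the sphere formula
`∫_{ℂ × (0,∞)} Ψ(R(z,y)) e(-Tr(μ z)) = (4π/k) ∫_0^∞ Ψ(R) R sin(kR) dR`, `k = 4π|μ|`.
-/

open MeasureTheory Set
open scoped ENNReal

namespace Vale.Agent.P006.KER

lemma measurableSet_cone : MeasurableSet {q : ℝ × ℝ | |q.1| < q.2} :=
  measurableSet_lt (by fun_prop) (by fun_prop)

/-- the density, as a function on the plane -/
noncomputable def coneF (g Ψ : ℝ → ℂ) (q : ℝ × ℝ) : ℂ :=
  {q : ℝ × ℝ | |q.1| < q.2}.indicator (fun q => ((2 * Real.pi * q.2 : ℝ) : ℂ) * (g q.1 * Ψ q.2)) q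

lemma coneF_slice (g Ψ : ℝ → ℂ) (R : ℝ) :
    (fun x => coneF g Ψ (x, R)) =
      (Ioo (-R) R).indicator (fun x => ((2 * Real.pi * R : ℝ) : ℂ) * (g x * Ψ R)) := by
  funext x
  unfold coneF
  by_cases h : |x| < R
  · have h1 : ((x, R) : ℝ × ℝ) ∈ {q : ℝ × ℝ | |q.1| < q.2} := h
    rw [indicator_of_mem h1, indicator_of_mem]
    exact abs_lt.1 h
  · have h1 : ((x, R) : ℝ × ℝ) ∉ {q : ℝ × ℝ | |q.1| < q.2} := h
    rw [indicator_of_notMem h1, indicator_of_notMem]
    intro h'
    exact h (abs_lt.2 h')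

lemma integral_coneF_slice (g Ψ : ℝ → ℂ) (R : ℝ) :
    ∫ x, coneF g Ψ (x, R) = (Ioi (0 : ℝ)).indicator (fun R =>
      ((2 * Real.pi * R : ℝ) : ℂ) * ((∫ x in (-R)..R, g x) * Ψ R)) R := by
  rw [coneF_slice, integral_indicator measurableSet_Ioo]
  by_cases h : 0 < R
  · rw [indicator_of_mem (by exact h), integral_const_mul, integral_mul_const,
      ← integral_Ioc_eq_integral_Ioo, ← intervalIntegral.integral_of_le (by linarith)]
  · rw [indicator_of_notMem (by exact h), Ioo_eq_empty (by linarith [not_lt.1 h]),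
      Measure.restrict_empty, integral_zero_measure]

lemma integrable_coneF {g Ψ : ℝ → ℂ} (hg : AEStronglyMeasurable g) {C : ℝ} (hgC : ∀ x, ‖g x‖ ≤ C)
    (hΨ : AEStronglyMeasurable Ψ) (hint : IntegrableOn (fun R => R ^ 2 * ‖Ψ R‖) (Ioi 0)) :
    Integrable (coneF g Ψ) := by
  have hmeas : AEStronglyMeasurable (coneF g Ψ) (volume : Measure (ℝ × ℝ)) := by
    unfold coneF
    refine AEStronglyMeasurable.indicator ?_ measurableSet_cone
    refine AEStronglyMeasurable.mul ?_ (AEStronglyMeasurable.mul ?_ ?_)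
    · exact Continuous.aestronglyMeasurable (by fun_prop)
    · exact hg.comp_quasiMeasurePreserving (Measure.quasiMeasurePreserving_fst)
    · exact hΨ.comp_quasiMeasurePreserving (Measure.quasiMeasurePreserving_snd)
  have hC : 0 ≤ C := (norm_nonneg _).trans (hgC 0)
  rw [Measure.volume_eq_prod] at hmeas ⊢
  rw [integrable_prod_iff' hmeas]
  constructor
  · refine Filter.Eventually.of_forall fun R => ?_
    rw [coneF_slice, integrable_indicator_iff measurableSet_Ioo]
    refine Integrable.const_mul (Integrable.mul_const ?_ _) _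
    refine Measure.integrableOn_of_bounded (M := C) (by simp) hg
      (Filter.Eventually.of_forall hgC)
  · have hle : ∀ R, ‖∫ x, ‖coneF g Ψ (x, R)‖‖ ≤
        (Ioi (0 : ℝ)).indicator (fun R => (4 * Real.pi * C) * (R ^ 2 * ‖Ψ R‖)) R := by
      intro R
      have e1 : (fun x => ‖coneF g Ψ (x, R)‖) =
        (Ioo (-R) R).indicator (fun x => ‖((2 * Real.pi * R : ℝ) : ℂ) * (g x * Ψ R)‖) := by
        funext x
        rw [show coneF g Ψ (x, R) = (fun x => coneF g Ψ (x, R)) x from rfl, coneF_slice,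
          norm_indicator_eq_indicator_norm]
      rw [e1, integral_indicator measurableSet_Ioo]
      by_cases h : 0 < R
      · rw [indicator_of_mem (by exact h)]
        have hb : ∀ x ∈ Ioo (-R) R, ‖‖((2 * Real.pi * R : ℝ) : ℂ) * (g x * Ψ R)‖‖ ≤
            2 * Real.pi * R * (C * ‖Ψ R‖) := by
          intro x _
          rw [norm_norm, norm_mul, norm_mul, Complex.norm_real, Real.norm_of_nonneg (by positivity)]
          gcongr
          exact hgC x
        refine (norm_setIntegral_le_of_norm_le_const (by simp) hb).trans (le_of_eq ?_)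
        rw [Real.volume_real_Ioo_of_le (by linarith)]
        ring
      · rw [indicator_of_notMem (by exact h), Ioo_eq_empty (by linarith [not_lt.1 h]),
          Measure.restrict_empty, integral_zero_measure, norm_zero]
    refine Integrable.mono' ?_ ?_ (Filter.Eventually.of_forall hle)
    · rw [integrable_indicator_iff measurableSet_Ioi]
      exact hint.const_mul _
    · exact (hmeas.norm.prod_swap).integral_prod_right'

theorem integral_sphm {g Ψ : ℝ → ℂ} (hg : AEStronglyMeasurable g) {C : ℝ} (hgC : ∀ x, ‖g x‖ ≤ C)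
    (hΨ : AEStronglyMeasurable Ψ) (hint : IntegrableOn (fun R => R ^ 2 * ‖Ψ R‖) (Ioi 0)) :
    Integrable (fun q : ℝ × ℝ => g q.1 * Ψ q.2) sphm ∧
    ∫ q, g q.1 * Ψ q.2 ∂sphm =
      ∫ R in Ioi (0 : ℝ), ((2 * Real.pi * R : ℝ) : ℂ) * ((∫ x in (-R)..R, g x) * Ψ R) := by
  have hI := integrable_coneF hg hgC hΨ hint
  have hd : Measurable (fun q : ℝ × ℝ => ENNReal.ofReal (2 * Real.pi * q.2)) := by fun_prop
  have hlt : ∀ᵐ q ∂((volume : Measure (ℝ × ℝ)).restrict {q | |q.1| < q.2}),
      ENNReal.ofReal (2 * Real.pi * q.2) < ⊤ := Filter.Eventually.of_forall fun q => by simp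
  have hae : (fun q : ℝ × ℝ => (ENNReal.ofReal (2 * Real.pi * q.2)).toReal • (g q.1 * Ψ q.2))
      =ᵐ[(volume : Measure (ℝ × ℝ)).restrict {q | |q.1| < q.2}]
      (fun q => ((2 * Real.pi * q.2 : ℝ) : ℂ) * (g q.1 * Ψ q.2)) := by
    filter_upwards [ae_restrict_mem measurableSet_cone] with q hq
    have h0 : 0 < q.2 := lt_of_le_of_lt (abs_nonneg _) hq
    rw [ENNReal.toReal_ofReal (by positivity), Complex.real_smul]
  constructor
  · rw [sphm, integrable_withDensity_iff_integrable_smul' hd hlt, integrable_congr hae]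
    rw [← IntegrableOn, ← integrable_indicator_iff measurableSet_cone]
    exact hI
  · rw [sphm, integral_withDensity_eq_integral_toReal_smul hd hlt, integral_congr_ae hae,
      ← integral_indicator measurableSet_cone]
    change ∫ q, coneF g Ψ q = _
    rw [Measure.volume_eq_prod] at hI ⊢
    rw [integral_prod_symm _ hI]
    simp_rw [integral_coneF_slice]
    rw [integral_indicator measurableSet_Ioi]

end Vale.Agent.P006.KER
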