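import Mathlib

/-!
Block KER-2: the sine transform attached to a smooth function supported in a compact subset of
`(0,∞)`, and its inversion.
-/

open MeasureTheory Set Filter
open scoped ENNReal FourierTransform ContDiff Topology

namespace Vale.Agent.P006.KER

/-- smooth function supported in `[a,b] ⊂ (0,∞)` -/
structure Nice (h : ℝ → ℂ) (a b : ℝ) : Prop where
  smooth : ContDiff ℝ ∞ h
  pos : 0 < a
  le : a ≤ b
  supp : ∀ x, x ∉ Icc a b → h x = 0

namespace Nice

variable {h : ℝ → ℂ} {a b : ℝ}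

lemma hcs (H : Nice h a b) : HasCompactSupport h :=
  HasCompactSupport.intro isCompact_Icc H.supp

lemma cont (H : Nice h a b) : Continuous h := H.smooth.continuous

lemma integrable (H : Nice h a b) : Integrable h :=
  H.cont.integrable_of_hasCompactSupport H.hcs

lemma eq_zero_of_le (H : Nice h a b) {x : ℝ} (hx : x < a) : h x = 0 :=
  H.supp x fun h' => by linarith [h'.1]

lemma eq_zero_of_ge (H : Nice h a b) {x : ℝ} (hx : b < x) : h x = 0 :=
  H.supp x fun h' => by linarith [h'.2]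

lemma eq_zero_of_nonpos (H : Nice h a b) {x : ℝ} (hx : x ≤ 0) : h x = 0 :=
  H.eq_zero_of_le (by linarith [H.pos])

end Nice

/-- odd extension -/
noncomputable def oddf (h : ℝ → ℂ) (t : ℝ) : ℂ := h t - h (-t)

/-- even antiderivative: `Gf h τ = ∫_{|τ|}^∞ h` -/
noncomputable def Gf (h : ℝ → ℂ) (τ : ℝ) : ℂ := (∫ t in Ioi (0 : ℝ), h t) - ∫ t in (0 : ℝ)..τ, oddf h t

section
variable {h : ℝ → ℂ} {a b : ℝ}

lemma oddf_neg (h : ℝ → ℂ) (t : ℝ) : oddf h (-t) = -oddf h t := by
  unfold oddf; rw [neg_neg]; ring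

lemma Nice.oddf_smooth (H : Nice h a b) : ContDiff ℝ ∞ (oddf h) := by
  unfold oddf
  exact H.smooth.sub (H.smooth.comp contDiff_neg)

lemma Nice.oddf_of_pos (H : Nice h a b) {t : ℝ} (ht : 0 ≤ t) : oddf h t = h t := by
  unfold oddf
  rw [H.eq_zero_of_nonpos (x := -t) (by linarith), sub_zero]

lemma Nice.oddf_eq_zero (H : Nice h a b) {t : ℝ} (ht : b < |t|) : oddf h t = 0 := by
  unfold oddf
  rcases le_total 0 t with h0 | h0
  · rw [abs_of_nonneg h0] at ht
    rw [H.eq_zero_of_ge ht, H.eq_zero_of_nonpos (by linarith), sub_zero]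
  · rw [abs_of_nonpos h0] at ht
    rw [H.eq_zero_of_nonpos h0, H.eq_zero_of_ge ht, sub_zero]

lemma Nice.oddf_hcs (H : Nice h a b) : HasCompactSupport (oddf h) := by
  apply HasCompactSupport.intro (isCompact_Icc (a := -b) (b := b))
  intro x hx
  apply H.oddf_eq_zero
  by_contra hcon
  exact hx (abs_le.1 (not_lt.1 hcon))

lemma Nice.oddf_integrable (H : Nice h a b) : Integrable (oddf h) :=
  H.oddf_smooth.continuous.integrable_of_hasCompactSupport H.oddf_hcs

lemma Nice.hasDerivAt_Gf (H : Nice h a b) (τ : ℝ) : HasDerivAt (Gf h) (-oddf h τ) τ := by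
  have h1 := (H.oddf_smooth.continuous).integral_hasStrictDerivAt 0 τ
  exact (h1.hasDerivAt.const_sub _)

lemma Nice.deriv_Gf (H : Nice h a b) : deriv (Gf h) = fun τ => -oddf h τ :=
  funext fun τ => (H.hasDerivAt_Gf τ).deriv

lemma Nice.Gf_smooth (H : Nice h a b) : ContDiff ℝ ∞ (Gf h) := by
  rw [contDiff_infty_iff_deriv]
  refine ⟨fun τ => (H.hasDerivAt_Gf τ).differentiableAt, ?_⟩
  rw [H.deriv_Gf]
  exact H.oddf_smooth.neg

lemma Nice.Gf_eq (H : Nice h a b) {τ : ℝ} (hτ : 0 ≤ τ) : Gf h τ = ∫ t in Ioi τ, h t := by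
  unfold Gf
  have h1 : ∫ t in (0 : ℝ)..τ, oddf h t = ∫ t in Ioc 0 τ, h t := by
    rw [intervalIntegral.integral_of_le hτ]
    apply setIntegral_congr_fun measurableSet_Ioc
    intro t ht
    exact H.oddf_of_pos ht.1.le
  rw [h1, ← Ioc_union_Ioi_eq_Ioi hτ, setIntegral_union (by
    rw [Set.disjoint_left]; intro x hx hx'; exact absurd hx.2 (not_le.2 hx')) measurableSet_Ioi
    H.integrable.integrableOn H.integrable.integrableOn]
  ring

lemma Gf_neg (h : ℝ → ℂ) (τ : ℝ) : Gf h (-τ) = Gf h τ := by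
  unfold Gf
  congr 1
  have : ∫ t in (0 : ℝ)..(-τ), oddf h t = ∫ t in (0:ℝ)..τ, oddf h t := by
    have h1 := intervalIntegral.integral_comp_neg (a := 0) (b := τ) (fun t => oddf h t)
    simp only [oddf_neg, neg_zero] at h1
    rw [intervalIntegral.integral_neg, intervalIntegral.integral_symm 0 (-τ)] at h1
    rw [← neg_inj, h1]
  exact this

lemma Nice.Gf_zero_of_lt (H : Nice h a b) {τ : ℝ} (hτ : b < |τ|) : Gf h τ = 0 := by
  have hb : 0 < b := H.pos.trans_le H.le
  have key : ∀ τ : ℝ, b < τ → Gf h τ = 0 := by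
    intro τ hτ
    rw [H.Gf_eq (by linarith)]
    apply setIntegral_eq_zero_of_forall_eq_zero
    intro t ht
    exact H.eq_zero_of_ge (hτ.trans ht)
  rcases le_total 0 τ with h0 | h0
  · rw [abs_of_nonneg h0] at hτ; exact key τ hτ
  · rw [abs_of_nonpos h0] at hτ; rw [← Gf_neg]; exact key _ hτ

lemma Nice.Gf_hcs (H : Nice h a b) : HasCompactSupport (Gf h) := by
  apply HasCompactSupport.intro (isCompact_Icc (a := -b) (b := b))
  intro x hx
  apply H.Gf_zero_of_lt
  by_contra hcon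
  exact hx (abs_le.1 (not_lt.1 hcon))

lemma Nice.Gf_integrable (H : Nice h a b) : Integrable (Gf h) :=
  H.Gf_smooth.continuous.integrable_of_hasCompactSupport H.Gf_hcs

/-- The function `T`: `T(x) = ∫_0^∞ cos(xτ) G(τ) dτ`. -/
noncomputable def Tf (h : ℝ → ℂ) (x : ℝ) : ℂ := (1 / 2) * 𝓕 (Gf h) (x / (2 * Real.pi))

lemma fourier_even {f : ℝ → ℂ} (hf : ∀ x, f (-x) = f x) (ξ : ℝ) : 𝓕 f (-ξ) = 𝓕 f ξ := by
  rw [Real.fourier_eq', Real.fourier_eq']
  rw [← integral_neg_eq_self]
  congr 1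
  funext v
  rw [hf]
  congr 3
  simp

lemma Tf_neg (h : ℝ → ℂ) (x : ℝ) : Tf h (-x) = Tf h x := by
  unfold Tf
  rw [neg_div, fourier_even (Gf_neg h)]

/-- `x T(x) = ∫ h(t) sin(xt) dt`. -/
lemma Nice.mul_Tf (H : Nice h a b) (x : ℝ) :
    (x : ℂ) * Tf h x = ∫ t, h t * (Real.sin (x * t) : ℂ) := by
  have h1 := Real.fourier_deriv H.Gf_integrable (H.Gf_smooth.differentiable (by simp))
    (by rw [H.deriv_Gf]; exact H.oddf_integrable.neg)
  have h2 := congrFun h1 (x / (2 * Real.pi))
  rw [H.deriv_Gf] at h2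
  have h3 : 𝓕 (fun τ => -oddf h τ) (x / (2 * Real.pi)) =
      2 * Complex.I * ∫ t, h t * (Real.sin (x * t) : ℂ) := by
    rw [Real.fourier_eq']
    have hc : ∀ v : ℝ, inner ℝ v (x / (2 * Real.pi)) = x * v / (2 * Real.pi) := by
      intro v; simp; ring
    have e1 : (fun v : ℝ => Complex.exp (((-2 * Real.pi * inner ℝ v (x / (2 * Real.pi)) : ℝ) : ℂ) *
        Complex.I) • (-oddf h v)) = fun v : ℝ =>
        (fun v : ℝ => Complex.exp (((x * v : ℝ) : ℂ) * Complex.I) * h v) (-v) -
          (fun v : ℝ => Complex.exp (-((x * v : ℝ) : ℂ) * Complex.I) * h v) v := by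
      funext v
      rw [hc]
      have : (-2 * Real.pi * (x * v / (2 * Real.pi)) : ℝ) = -(x * v) := by
        field_simp
      rw [this]
      simp only [oddf, smul_eq_mul]
      push_cast
      ring_nf
    rw [e1, integral_sub, integral_neg_eq_self
      (fun v : ℝ => Complex.exp (((x * v : ℝ) : ℂ) * Complex.I) * h v) volume,
      ← integral_sub, ← integral_const_mul]
    · congr 1
      funext v
      rw [Complex.ofReal_sin, Complex.sin]
      have hI : Complex.I * Complex.I = -1 := Complex.I_mul_I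
      linear_combination (h v * (Complex.exp (((x * v : ℝ) : ℂ) * Complex.I) -
        Complex.exp (-((x * v : ℝ) : ℂ) * Complex.I))) * hI
    · refine (Continuous.integrable_of_hasCompactSupport ?_ ?_)
      · have := H.cont; fun_prop
      · exact H.hcs.mul_left
    · refine (Continuous.integrable_of_hasCompactSupport ?_ ?_)
      · have := H.cont; fun_prop
      · exact H.hcs.mul_left
    · refine (Continuous.integrable_of_hasCompactSupport (f := fun v : ℝ => Complex.exp (((x * v : ℝ) : ℂ) * Complex.I) * h v) ?_ ?_).comp_neg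
      · have := H.cont; fun_prop
      · exact H.hcs.mul_left
    · refine (Continuous.integrable_of_hasCompactSupport ?_ ?_)
      · have := H.cont; fun_prop
      · exact H.hcs.mul_left
  rw [h3] at h2
  have hpi : (Real.pi : ℂ) ≠ 0 := by exact_mod_cast Real.pi_ne_zero
  unfold Tf
  have h4 : 2 * Complex.I * ∫ t, h t * (Real.sin (x * t) : ℂ) =
      (2 * Real.pi * Complex.I * ((x / (2 * Real.pi) : ℝ) : ℂ)) * 𝓕 (Gf h) (x / (2 * Real.pi)) := by
    rw [h2]; simp
  have h5 : (2 * Real.pi * Complex.I * ((x / (2 * Real.pi) : ℝ) : ℂ)) = 2 * Complex.I * (x / 2) := by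
    push_cast
    field_simp
  rw [h5] at h4
  have h6 : 2 * Complex.I * (∫ t, h t * (Real.sin (x * t) : ℂ)) =
      2 * Complex.I * ((x : ℂ) / 2 * 𝓕 (Gf h) (x / (2 * Real.pi))) := by
    rw [h4]; ring
  have h7 := mul_left_cancel₀ (mul_ne_zero two_ne_zero Complex.I_ne_zero) h6
  rw [h7]
  ring

end

end Vale.Agent.P006.KER
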