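import Mathlib
import Vale.Agent.P006.KER.Inv

/-!
Block KER-2: `T` is a Schwartz function; inversion of the sine transform.
-/

open MeasureTheory Set Filter
open scoped ENNReal FourierTransform ContDiff Topology

namespace Vale.Agent.P006.KER

variable {h : ℝ → ℂ} {a b : ℝ}

/-- `G` as a Schwartz function -/
noncomputable def Nice.Gs (H : Nice h a b) : SchwartzMap ℝ ℂ := H.Gf_hcs.toSchwartzMap H.Gf_smooth

lemma Nice.Gs_coe (H : Nice h a b) : ⇑H.Gs = Gf h := rfl

lemma Nice.fourier_Gf (H : Nice h a b) : 𝓕 (Gf h) = ⇑(𝓕 H.Gs : SchwartzMap ℝ ℂ) := by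
  rw [SchwartzMap.fourier_coe, H.Gs_coe]

lemma Nice.fourier_smooth (H : Nice h a b) : ContDiff ℝ ∞ (𝓕 (Gf h)) := by
  rw [H.fourier_Gf]; exact (𝓕 H.Gs : SchwartzMap ℝ ℂ).smooth ⊤

lemma Nice.Tf_smooth (H : Nice h a b) : ContDiff ℝ ∞ (Tf h) := by
  unfold Tf
  exact contDiff_const.mul (H.fourier_smooth.comp (contDiff_id.div_const _))

lemma Nice.Tf_cont (H : Nice h a b) : Continuous (Tf h) := H.Tf_smooth.continuous

/-- integrability of `x^n T(x)` -/
lemma Nice.integrable_pow_Tf (H : Nice h a b) (n : ℕ) :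
    Integrable (fun x : ℝ => |x| ^ n * ‖Tf h x‖) := by
  have h1 := (𝓕 H.Gs : SchwartzMap ℝ ℂ).integrable_pow_mul volume n
  rw [← H.fourier_Gf] at h1
  have h2 := h1.comp_div (R := 2 * Real.pi) (by positivity)
  have h3 := h2.const_mul ((2 * Real.pi) ^ n * (1 / 2))
  refine h3.congr (Eventually.of_forall fun x => ?_)
  simp only [Tf, norm_mul, Real.norm_eq_abs, abs_div, abs_of_pos (show (0:ℝ) < 2 * Real.pi by positivity)]
  rw [div_pow]
  have : (2 * Real.pi) ^ n ≠ 0 := by positivity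
  field_simp
  norm_num
  ring

lemma Nice.integrable_Tf (H : Nice h a b) : Integrable (Tf h) := by
  have := H.integrable_pow_Tf 0
  simp only [pow_zero, one_mul] at this
  exact (integrable_norm_iff H.Tf_cont.aestronglyMeasurable).1 this

lemma Nice.integrable_mul_Tf (H : Nice h a b) : Integrable (fun x : ℝ => (x : ℂ) * Tf h x) := by
  have := H.integrable_pow_Tf 1
  refine (integrable_norm_iff ?_).1 (this.congr (Eventually.of_forall fun x => ?_))
  · have := H.Tf_cont; exact (by fun_prop : Continuous fun x : ℝ => (x : ℂ) * Tf h x).aestronglyMeasurable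
  · simp

/-- integral over `ℝ` of an odd function times exponential -/
lemma integral_odd_exp {f : ℝ → ℂ} (hf : Integrable f) (hodd : ∀ x, f (-x) = -f x) (τ : ℝ) :
    ∫ x, Complex.exp (((x * τ : ℝ) : ℂ) * Complex.I) * f x =
      2 * Complex.I * ∫ x in Ioi (0 : ℝ), f x * (Real.sin (x * τ) : ℂ) := by
  have hE : Continuous fun x : ℝ => Complex.exp (((x * τ : ℝ) : ℂ) * Complex.I) := by fun_prop
  have hbd : ∀ x : ℝ, ‖Complex.exp (((x * τ : ℝ) : ℂ) * Complex.I)‖ ≤ 1 := fun x => by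
    rw [Complex.norm_exp_ofReal_mul_I]
  have hI : Integrable fun x : ℝ => Complex.exp (((x * τ : ℝ) : ℂ) * Complex.I) * f x :=
    hf.bdd_mul (c := 1) hE.aestronglyMeasurable (Eventually.of_forall hbd)
  rw [← integral_add_compl (measurableSet_Ioi (a := (0 : ℝ))) hI, compl_Ioi]
  have h1 : ∫ x in Iic (0 : ℝ), Complex.exp (((x * τ : ℝ) : ℂ) * Complex.I) * f x =
      ∫ x in Ioi (0 : ℝ), -(Complex.exp (-((x * τ : ℝ) : ℂ) * Complex.I) * f x) := by
    have := integral_comp_neg_Ioi (0 : ℝ)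
      (fun x : ℝ => Complex.exp (((x * τ : ℝ) : ℂ) * Complex.I) * f x)
    rw [neg_zero] at this
    rw [← this]
    apply integral_congr_ae
    refine Eventually.of_forall fun x => ?_
    simp only [hodd]
    push_cast
    ring_nf
  have hI2 : Integrable fun x : ℝ => -(Complex.exp (-((x * τ : ℝ) : ℂ) * Complex.I) * f x) := by
    refine (hf.bdd_mul (c := 1) (by fun_prop : Continuous fun x : ℝ =>
      Complex.exp (-((x * τ : ℝ) : ℂ) * Complex.I)).aestronglyMeasurable
      (Eventually.of_forall fun x => ?_)).neg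
    rw [show (-((x * τ : ℝ) : ℂ)) = ((-(x * τ) : ℝ) : ℂ) by push_cast; ring,
      Complex.norm_exp_ofReal_mul_I]
  rw [h1, ← integral_add hI.integrableOn hI2.integrableOn, ← integral_const_mul]
  apply integral_congr_ae
  refine Eventually.of_forall fun x => ?_
  simp only
  rw [Complex.ofReal_sin, Complex.sin]
  have hII : Complex.I * Complex.I = -1 := Complex.I_mul_I
  linear_combination (f x * (Complex.exp (((x * τ : ℝ) : ℂ) * Complex.I) -
        Complex.exp (-((x * τ : ℝ) : ℂ) * Complex.I))) * hII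

/-- inversion of the sine transform -/
theorem Nice.sine_inversion (H : Nice h a b) {τ : ℝ} (hτ : 0 ≤ τ) :
    ∫ x in Ioi (0 : ℝ), ((x : ℂ) * Tf h x) * (Real.sin (x * τ) : ℂ) = (Real.pi / 2 : ℂ) * h τ := by
  -- Fourier transform of the odd extension
  have h1 := Real.fourier_deriv H.Gf_integrable (H.Gf_smooth.differentiable (by simp))
    (by rw [H.deriv_Gf]; exact H.oddf_integrable.neg)
  rw [H.deriv_Gf] at h1
  have h2 : 𝓕 (oddf h) = fun ξ : ℝ => -((2 * Real.pi * Complex.I * ξ) * 𝓕 (Gf h) ξ) := by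
    have e : (fun τ => -oddf h τ) = -(oddf h) := rfl
    have h3 : 𝓕 (fun τ => -oddf h τ) = -𝓕 (oddf h) := by
      funext ξ
      rw [Real.fourier_eq', Pi.neg_apply, Real.fourier_eq', ← integral_neg]
      congr 1
      funext v
      simp
    rw [h3] at h1
    funext ξ
    have := congrFun h1 ξ
    simp only [Pi.neg_apply, smul_eq_mul] at this
    rw [← this]; ring
  have hint : Integrable (𝓕 (oddf h)) := by
    have : 𝓕 (oddf h) = ⇑(𝓕 (H.oddf_hcs.toSchwartzMap H.oddf_smooth) : SchwartzMap ℝ ℂ) := by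
      rw [SchwartzMap.fourier_coe]; rfl
    rw [this]; exact SchwartzMap.integrable _
  have hinv := congrFun (H.oddf_smooth.continuous.fourierInv_fourier_eq H.oddf_integrable hint) τ
  rw [Real.fourierInv_eq', H.oddf_of_pos hτ, h2] at hinv
  -- change of variables
  have h4 : ∫ v : ℝ, Complex.exp (((2 * Real.pi * inner ℝ v τ : ℝ) : ℂ) * Complex.I) •
      -((2 * Real.pi * Complex.I * v) * 𝓕 (Gf h) v) =
      (1 / (2 * Real.pi) : ℂ) * ∫ x : ℝ, Complex.exp (((x * τ : ℝ) : ℂ) * Complex.I) *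
        (-(2 * Complex.I) * ((x : ℂ) * Tf h x)) := by
    have := Measure.integral_comp_div (fun v : ℝ =>
      Complex.exp (((2 * Real.pi * inner ℝ v τ : ℝ) : ℂ) * Complex.I) •
      -((2 * Real.pi * Complex.I * v) * 𝓕 (Gf h) v)) (2 * Real.pi)
    rw [abs_of_pos (by positivity)] at this
    have hpi : ((2 * Real.pi : ℝ) : ℂ) ≠ 0 := by
      exact_mod_cast (by positivity : (2 * Real.pi : ℝ) ≠ 0)
    have h5 : ∫ v : ℝ, Complex.exp (((2 * Real.pi * inner ℝ v τ : ℝ) : ℂ) * Complex.I) •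
      -((2 * Real.pi * Complex.I * v) * 𝓕 (Gf h) v) = (1 / (2 * Real.pi) : ℂ) *
      ∫ x : ℝ, Complex.exp (((2 * Real.pi * inner ℝ (x / (2 * Real.pi)) τ : ℝ) : ℂ) * Complex.I) •
      -((2 * Real.pi * Complex.I * ((x / (2 * Real.pi) : ℝ) : ℂ)) * 𝓕 (Gf h) (x / (2 * Real.pi))) := by
      rw [this, Complex.real_smul]
      generalize (∫ v : ℝ, Complex.exp (((2 * Real.pi * inner ℝ v τ : ℝ) : ℂ) * Complex.I) •
        -((2 * Real.pi * Complex.I * v) * 𝓕 (Gf h) v)) = J
      push_cast at hpi ⊢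
      field_simp
    rw [h5]
    congr 1
    apply integral_congr_ae
    refine Eventually.of_forall fun x => ?_
    simp only
    have e1 : (2 * Real.pi * inner ℝ (x / (2 * Real.pi)) τ : ℝ) = x * τ := by
      simp only [RCLike.inner_apply, conj_trivial]
      field_simp
    rw [e1]
    unfold Tf
    have hpc : (Real.pi : ℂ) ≠ 0 := by exact_mod_cast Real.pi_ne_zero
    push_cast
    simp only [smul_eq_mul]
    field_simp
  rw [h4, integral_odd_exp (f := fun x : ℝ => -(2 * Complex.I) * ((x : ℂ) * Tf h x))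
    (H.integrable_mul_Tf.const_mul _) (fun x => by rw [Tf_neg]; push_cast; ring)] at hinv
  have hpc : (Real.pi : ℂ) ≠ 0 := by exact_mod_cast Real.pi_ne_zero
  have h6 : ∫ x in Ioi (0 : ℝ), (-(2 * Complex.I) * ((x : ℂ) * Tf h x)) * (Real.sin (x * τ) : ℂ) =
      -(2 * Complex.I) * ∫ x in Ioi (0 : ℝ), ((x : ℂ) * Tf h x) * (Real.sin (x * τ) : ℂ) := by
    rw [← integral_const_mul]
    congr 1
    funext x
    ring
  rw [h6] at hinv
  rw [← hinv]
  have hII : Complex.I * Complex.I = -1 := Complex.I_mul_I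
  generalize (∫ x in Ioi (0 : ℝ), ((x : ℂ) * Tf h x) * (Real.sin (x * τ) : ℂ)) = J
  have : (Real.pi / 2 : ℂ) * (1 / (2 * Real.pi) * (2 * Complex.I * (-(2 * Complex.I) * J))) =
      -(Complex.I * Complex.I) * J := by
    field_simp
  rw [this, hII]; ring

end Vale.Agent.P006.KER
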