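import Mathlib
import Vale.Agent.P006.KER.Inv2
import Vale.Agent.P006.KER.Formula

/-!
Block KER: the kernel theorem.  For every smooth weight `W` supported in a compact subset of
`(0,∞)` there is an explicit profile `Phi` on the half line whose integral over the upper half
space against the additive character of frequency `μ` is exactly `W`.
-/

open MeasureTheory Set Filter
open scoped ENNReal FourierTransform ContDiff Topology

namespace Vale.Agent.P006.KER

/-- the additive character `e(-Tr(μ z))` -/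
noncomputable def chr (μ z : ℂ) : ℂ := Complex.exp (((-(4 * Real.pi * (μ * z).re) : ℝ) : ℂ) * Complex.I)

lemma norm_chr (μ z : ℂ) : ‖chr μ z‖ = 1 := by
  unfold chr; rw [Complex.norm_exp_ofReal_mul_I]

lemma continuous_chr (μ : ℂ) : Continuous (chr μ) := by
  unfold chr; fun_prop

/-- the integral `∫_{-R}^R e^{-ikx} dx` -/
lemma integral_exp_symm {k : ℝ} (hk : k ≠ 0) (R : ℝ) :
    ∫ x in (-R)..R, Complex.exp (((-(k * x) : ℝ) : ℂ) * Complex.I) =
      ((2 * Real.sin (k * R) / k : ℝ) : ℂ) := by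
  have h1 : ∀ x : ℝ, HasDerivAt (fun x : ℝ => (Complex.I / k) *
      Complex.exp (((-(k * x) : ℝ) : ℂ) * Complex.I))
      (Complex.exp (((-(k * x) : ℝ) : ℂ) * Complex.I)) x := by
    intro x
    have hkc : (k : ℂ) ≠ 0 := by exact_mod_cast hk
    have h2 : HasDerivAt (fun x : ℝ => ((-(k * x) : ℝ) : ℂ) * Complex.I)
        (((-(k * 1) : ℝ) : ℂ) * Complex.I) x := by
      have h3 : HasDerivAt (fun x : ℝ => -(k * x)) (-(k * 1)) x :=
        ((hasDerivAt_id x).const_mul k).neg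
      exact h3.ofReal_comp.mul_const _
    have h4 := (h2.cexp).const_mul (Complex.I / (k : ℂ))
    refine h4.congr_deriv ?_
    have hII : Complex.I * Complex.I = -1 := Complex.I_mul_I
    generalize Complex.exp (((-(k * x) : ℝ) : ℂ) * Complex.I) = E
    push_cast
    have : (Complex.I / (k : ℂ)) * (E * (-((k : ℂ) * 1) * Complex.I)) =
        -(Complex.I * Complex.I) * E := by
      field_simp
    rw [this, hII]
    ring
  rw [intervalIntegral.integral_eq_sub_of_hasDerivAt (fun x _ => h1 x)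
    (Continuous.intervalIntegrable (by fun_prop) _ _)]
  have hkc : (k : ℂ) ≠ 0 := by exact_mod_cast hk
  push_cast
  rw [Complex.sin]
  field_simp

/-- **Sphere formula.** -/
theorem sphere_formula {μ : ℂ} (hμ : μ ≠ 0) {Ψ : ℝ → ℂ} (hΨ : AEStronglyMeasurable Ψ)
    (hint : IntegrableOn (fun R => R ^ 2 * ‖Ψ R‖) (Ioi 0)) :
    Integrable (fun p : ℂ × ℝ => chr μ p.1 * Ψ (R3 p)) hmeas ∧
    ∫ p : ℂ × ℝ, chr μ p.1 * Ψ (R3 p) ∂hmeas =
      ((4 * Real.pi / (4 * Real.pi * ‖μ‖) : ℝ) : ℂ) *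
        ∫ R in Ioi (0 : ℝ), ((R * Real.sin (4 * Real.pi * ‖μ‖ * R) : ℝ) : ℂ) * Ψ R := by
  set k : ℝ := 4 * Real.pi * ‖μ‖ with hk
  have hμn : 0 < ‖μ‖ := norm_pos_iff.2 hμ
  have hk0 : 0 < k := by positivity
  -- rotate
  have hu : ‖μ / ‖μ‖‖ = 1 := by
    rw [norm_div, Complex.norm_real, norm_norm, div_self hμn.ne']
  obtain ⟨u, hu'⟩ : ∃ u : Circle, (u : ℂ) = μ / ‖μ‖ :=
    ⟨⟨μ / ‖μ‖, mem_sphere_zero_iff_norm.2 hu⟩, rfl⟩
  set g : ℝ → ℂ := fun x => Complex.exp (((-(k * x) : ℝ) : ℂ) * Complex.I) with hg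
  have hgc : Continuous g := by rw [hg]; fun_prop
  have hgb : ∀ x, ‖g x‖ ≤ 1 := fun x => by rw [hg]; simp only; rw [Complex.norm_exp_ofReal_mul_I]
  have hchr : ∀ p : ℂ × ℝ, chr μ p.1 = g (((u : ℂ) * p.1).re) := by
    intro p
    rw [hg, hu']
    unfold chr
    simp only
    congr 3
    have hc : (‖μ‖ : ℂ) ≠ 0 := by exact_mod_cast hμn.ne'
    have : μ * p.1 = (‖μ‖ : ℂ) * (μ / ‖μ‖ * p.1) := by field_simp
    rw [this, Complex.re_ofReal_mul, hk]
    ring
  obtain ⟨hI, hE⟩ := integral_sphm hgc.aestronglyMeasurable hgb hΨ hint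
  have hmap := joint_law_rot u
  have hmeasf : Measurable (fun p : ℂ × ℝ => (((u : ℂ) * p.1).re, R3 p)) :=
    (Complex.measurable_re.comp (measurable_fst.const_mul _)).prodMk measurable_R3
  rw [← hmap] at hI hE
  have hcomp : (fun p : ℂ × ℝ => chr μ p.1 * Ψ (R3 p)) =
      (fun q : ℝ × ℝ => g q.1 * Ψ q.2) ∘ (fun p : ℂ × ℝ => (((u : ℂ) * p.1).re, R3 p)) := by
    funext p; simp only [Function.comp_apply, hchr]
  constructor
  · rw [hcomp]
    exact hI.comp_measurable hmeasf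
  · rw [integral_map hmeasf.aemeasurable hI.aestronglyMeasurable] at hE
    have e1 : ∫ p : ℂ × ℝ, chr μ p.1 * Ψ (R3 p) ∂hmeas =
        ∫ p : ℂ × ℝ, g (((u : ℂ) * p.1).re) * Ψ (R3 p) ∂hmeas :=
      integral_congr_ae (Eventually.of_forall fun p => by simp only [hchr])
    rw [e1, hE, ← integral_const_mul]
    apply integral_congr_ae
    refine Eventually.of_forall fun R => ?_
    simp only [hg]
    rw [integral_exp_symm hk0.ne']
    have hkc : (k : ℂ) ≠ 0 := by exact_mod_cast hk0.ne'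
    push_cast
    field_simp
    ring

/-- inversion `τ ↦ W(1/(2τ))/(2τ²)` of a weight -/
noncomputable def hW (W : ℝ → ℂ) (τ : ℝ) : ℂ := W (1 / (2 * τ)) / (2 * τ ^ 2 : ℝ)

lemma Nice.hW {W : ℝ → ℂ} {a b : ℝ} (H : Nice W a b) :
    Nice (hW W) (1 / (2 * b)) (1 / (2 * a)) where
  smooth := by
    have hb : 0 < b := H.pos.trans_le H.le
    rw [contDiff_iff_contDiffAt]
    intro x
    rcases eq_or_ne x 0 with rfl | hx
    · have : KER.hW W =ᶠ[𝓝 0] fun _ => 0 := by
        filter_upwards [Metric.ball_mem_nhds (0 : ℝ) (show (0:ℝ) < 1 / (2 * b) by positivity)] with y hy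
        rw [Metric.mem_ball, Real.dist_eq, sub_zero] at hy
        unfold KER.hW
        rw [H.supp, zero_div]
        rintro ⟨h1, h2⟩
        have hy0 : 0 < y := by
          by_contra hcon
          have : 1 / (2 * y) ≤ 0 := by
            apply div_nonpos_of_nonneg_of_nonpos zero_le_one
            linarith
          linarith [H.pos]
        rw [abs_of_pos hy0, lt_div_iff₀ (by positivity)] at hy
        rw [div_le_iff₀ (by positivity)] at h2
        nlinarith
      exact contDiffAt_const.congr_of_eventuallyEq this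
    · unfold KER.hW
      have h1 : ContDiffAt ℝ ∞ (fun τ : ℝ => W (1 / (2 * τ))) x := by
        apply H.smooth.contDiffAt.comp
        exact contDiffAt_const.div (contDiffAt_const.mul contDiffAt_id) (by simpa using hx)
      have h2 : ContDiffAt ℝ ∞ (fun τ : ℝ => (((2 * τ ^ 2)⁻¹ : ℝ) : ℂ)) x := by
        apply Complex.ofRealCLM.contDiff.contDiffAt.comp
        exact (contDiffAt_const.mul (contDiffAt_id.pow 2)).inv (by simpa using hx)
      have h3 := h1.mul h2
      have h4 : (fun τ : ℝ => W (1 / (2 * τ)) / ((2 * τ ^ 2 : ℝ) : ℂ)) =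
          fun τ : ℝ => W (1 / (2 * τ)) * (((2 * τ ^ 2)⁻¹ : ℝ) : ℂ) := by
        funext τ
        rw [Complex.ofReal_inv, div_eq_mul_inv]
      rw [h4]
      exact h3
  pos := by have := H.pos.trans_le H.le; positivity
  le := by
    have := H.pos
    have h2 := H.le
    gcongr
  supp := by
    intro x hx
    have ha := H.pos
    have hb : 0 < b := H.pos.trans_le H.le
    unfold KER.hW
    rw [H.supp, zero_div]
    rintro ⟨h1, h2⟩
    have hx0 : 0 < x := by
      by_contra hcon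
      have : 1 / (2 * x) ≤ 0 := by
        apply div_nonpos_of_nonneg_of_nonpos zero_le_one
        linarith
      linarith
    apply hx
    constructor
    · rw [div_le_iff₀ (by positivity)] at h2 ⊢
      nlinarith
    · rw [le_div_iff₀ (by positivity)] at h1 ⊢
      nlinarith

/-- the profile: `Phi W K B v = (K^3/π^2) T(K v / B)` where `T` is attached to `hW W`. -/
noncomputable def Phi (W : ℝ → ℂ) (K B v : ℝ) : ℂ := ((K ^ 3 / Real.pi ^ 2 : ℝ) : ℂ) * Tf (hW W) (K * v / B)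

lemma Phi_integrableOn {W : ℝ → ℂ} {a b : ℝ} (H : Nice W a b) {K B r : ℝ} (hK : 0 < K) (hB : 0 < B)
    (hr : 0 < r) : IntegrableOn (fun R => R ^ 2 * ‖Phi W K B (2 * r * R)‖) (Ioi 0) := by
  have h1 := H.hW.integrable_pow_Tf 2
  have hc : (2 * r * K / B) ≠ 0 := by positivity
  have h2 := (h1.comp_mul_left' hc).const_mul ((K ^ 3 / Real.pi ^ 2) / (2 * r * K / B) ^ 2)
  refine (h2.congr (Eventually.of_forall fun R => ?_)).integrableOn
  simp only [Phi, norm_mul, Complex.norm_real, Real.norm_eq_abs]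
  rw [abs_of_pos (show 0 < K ^ 3 / Real.pi ^ 2 by positivity), sq_abs,
    show K * (2 * r * R) / B = 2 * r * K / B * R by ring]
  field_simp

/-- **Kernel theorem.** -/
theorem kernel {W : ℝ → ℂ} {a b : ℝ} (H : Nice W a b) {K B r : ℝ} (hK : 0 < K) (hB : 0 < B)
    (hr : 0 < r) {μ : ℂ} (hμ : μ ≠ 0) :
    Integrable (fun p : ℂ × ℝ => chr μ p.1 * Phi W K B (2 * r * R3 p)) hmeas ∧
    ∫ p : ℂ × ℝ, chr μ p.1 * Phi W K B (2 * r * R3 p) ∂hmeas =
      (((K / (4 * Real.pi * ‖μ‖)) ^ 3 : ℝ) : ℂ) * W (r / B * (K / (4 * Real.pi * ‖μ‖))) := by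
  have hcont : Continuous (fun R => Phi W K B (2 * r * R)) := by
    unfold Phi
    have := H.hW.Tf_cont
    fun_prop
  obtain ⟨h1, h2⟩ := sphere_formula hμ hcont.aestronglyMeasurable (Phi_integrableOn H hK hB hr)
  refine ⟨h1, ?_⟩
  rw [h2]
  set k : ℝ := 4 * Real.pi * ‖μ‖ with hk
  have hμn : 0 < ‖μ‖ := norm_pos_iff.2 hμ
  have hk0 : 0 < k := by positivity
  set c : ℝ := 2 * r * K / B with hc
  have hc0 : 0 < c := by positivity
  have h3 := integral_comp_mul_left_Ioi (fun x : ℝ => ((x : ℂ) * Tf (hW W) x) *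
    (Real.sin (x * (k / c)) : ℂ)) 0 hc0
  rw [mul_zero, H.hW.sine_inversion (by positivity)] at h3
  have h4 : ∫ R in Ioi (0 : ℝ), ((R * Real.sin (k * R) : ℝ) : ℂ) * Phi W K B (2 * r * R) =
      ((K ^ 3 / Real.pi ^ 2 / c : ℝ) : ℂ) * ∫ x in Ioi (0 : ℝ), ((((c * x : ℝ) : ℂ) * Tf (hW W) (c * x)) *
    (Real.sin ((c * x) * (k / c)) : ℂ)) := by
    rw [← integral_const_mul]
    apply integral_congr_ae
    refine Eventually.of_forall fun R => ?_
    simp only [Phi]
    rw [show K * (2 * r * R) / B = c * R by rw [hc]; ring,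
      show c * R * (k / c) = k * R by field_simp]
    have hcc : (c : ℂ) ≠ 0 := by exact_mod_cast hc0.ne'
    push_cast
    field_simp
  rw [h4, h3]
  unfold hW
  have e1 : 1 / (2 * (k / c)) = r / B * (K / k) := by rw [hc]; field_simp
  rw [e1, Complex.real_smul]
  generalize W (r / B * (K / k)) = w
  have e2 : (k : ℂ) ≠ 0 := by exact_mod_cast hk0.ne'
  have e3 : (K : ℂ) ≠ 0 := by exact_mod_cast hK.ne'
  have e4 : (B : ℂ) ≠ 0 := by exact_mod_cast hB.ne'
  have e5 : (r : ℂ) ≠ 0 := by exact_mod_cast hr.ne'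
  have e6 : (Real.pi : ℂ) ≠ 0 := by exact_mod_cast Real.pi_ne_zero
  rw [hc]
  push_cast
  field_simp
  ring

end Vale.Agent.P006.KER
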