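import Mathlib
import Vale.Agent.P006.KER.Kernel

/-!
Block KER-5: uniform bounds for twisted weights `s^{it} U(s)`.
-/

open MeasureTheory Set Filter
open scoped Topology FourierTransform ContDiff

namespace Vale.Agent.P006.KER

variable {U : ℝ → ℂ} {a b : ℝ}

/-- twisted weight `s^{it} U(s)` -/
noncomputable def tw (U : ℝ → ℂ) (t s : ℝ) : ℂ := Complex.exp (((t * Real.log s : ℝ) : ℂ) * Complex.I) * U s

lemma norm_tw (U : ℝ → ℂ) (t s : ℝ) : ‖tw U t s‖ = ‖U s‖ := by
  unfold tw; rw [norm_mul, Complex.norm_exp_ofReal_mul_I, one_mul]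

lemma tw_eq_cpow (U : ℝ → ℂ) (t : ℝ) {s : ℝ} (hs : 0 < s) :
    tw U t s = (s : ℂ) ^ ((t : ℂ) * Complex.I) * U s := by
  unfold tw
  rw [Complex.cpow_def_of_ne_zero (by exact_mod_cast hs.ne'), ← Complex.ofReal_log hs.le]
  congr 2
  push_cast
  ring

lemma Nice.tw (H : Nice U a b) (t : ℝ) : Nice (tw U t) a b where
  smooth := by
    rw [contDiff_iff_contDiffAt]
    intro x
    by_cases hx : x < a
    · have : KER.tw U t =ᶠ[𝓝 x] fun _ => 0 := by
        filter_upwards [Iio_mem_nhds hx] with y hy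
        unfold KER.tw
        rw [H.eq_zero_of_le hy, mul_zero]
      exact contDiffAt_const.congr_of_eventuallyEq this
    · have hx0 : x ≠ 0 := by have := H.pos; intro h; apply hx; rw [h]; exact this
      unfold KER.tw
      apply ContDiffAt.mul _ H.smooth.contDiffAt
      apply ContDiffAt.cexp
      apply ContDiffAt.mul _ contDiffAt_const
      apply Complex.ofRealCLM.contDiff.contDiffAt.comp
      exact contDiffAt_const.mul (Real.contDiffAt_log.2 hx0)
  pos := H.pos
  le := H.le
  supp := fun x hx => by unfold KER.tw; rw [H.supp x hx, mul_zero]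

/-- derivative of a nice function is nice -/
lemma Nice.deriv (H : Nice U a b) : Nice (deriv U) a b where
  smooth := by
    have := (contDiff_infty_iff_deriv.1 H.smooth).2
    exact this
  pos := H.pos
  le := H.le
  supp := by
    intro x hx
    have : U =ᶠ[𝓝 x] fun _ => 0 := by
      filter_upwards [isClosed_Icc.isOpen_compl.mem_nhds (show x ∈ (Icc a b)ᶜ from hx)] with y hy
      exact H.supp y hy
    rw [this.deriv_eq]
    simp

/-- division by `x` -/
lemma Nice.divx (H : Nice U a b) : Nice (fun x => ((x⁻¹ : ℝ) : ℂ) * U x) a b where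
  smooth := by
    rw [contDiff_iff_contDiffAt]
    intro x
    by_cases hx : x < a
    · have : (fun x => ((x⁻¹ : ℝ) : ℂ) * U x) =ᶠ[𝓝 x] fun _ => 0 := by
        filter_upwards [Iio_mem_nhds hx] with y hy
        rw [H.eq_zero_of_le hy, mul_zero]
      exact contDiffAt_const.congr_of_eventuallyEq this
    · have hx0 : x ≠ 0 := by have := H.pos; intro h; apply hx; rw [h]; exact this
      apply ContDiffAt.mul _ H.smooth.contDiffAt
      exact Complex.ofRealCLM.contDiff.contDiffAt.comp x (contDiffAt_inv ℝ hx0)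
  pos := H.pos
  le := H.le
  supp := fun x hx => by rw [H.supp x hx, mul_zero]

lemma Nice.deriv_tw (H : Nice U a b) (t : ℝ) :
    _root_.deriv (KER.tw U t) = fun x => KER.tw (_root_.deriv U) t x +
      ((t : ℂ) * Complex.I) * KER.tw (fun x => ((x⁻¹ : ℝ) : ℂ) * U x) t x := by
  funext x
  by_cases hx : x < a
  · have h1 : KER.tw U t =ᶠ[𝓝 x] fun _ => 0 := by
      filter_upwards [Iio_mem_nhds hx] with y hy
      unfold KER.tw
      rw [H.eq_zero_of_le hy, mul_zero]
    rw [h1.deriv_eq]
    unfold KER.tw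
    simp [H.eq_zero_of_le hx, H.deriv.eq_zero_of_le hx]
  · have hx0 : x ≠ 0 := by have := H.pos; intro h; apply hx; rw [h]; exact this
    have hU : HasDerivAt U (_root_.deriv U x) x :=
      ((H.smooth.differentiable (by simp)) x).hasDerivAt
    have h1 : HasDerivAt (fun s : ℝ => ((t * Real.log s : ℝ) : ℂ) * Complex.I)
        (((t * x⁻¹ : ℝ) : ℂ) * Complex.I) x :=
      (((Real.hasDerivAt_log hx0).const_mul t).ofReal_comp).mul_const _
    have h2 := h1.cexp.mul hU
    have h3 : HasDerivAt (KER.tw U t) (Complex.exp (((t * Real.log x : ℝ) : ℂ) * Complex.I) *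
        (((t * x⁻¹ : ℝ) : ℂ) * Complex.I) * U x +
        Complex.exp (((t * Real.log x : ℝ) : ℂ) * Complex.I) * _root_.deriv U x) x := h2
    rw [h3.deriv]
    unfold KER.tw
    push_cast
    ring

lemma iteratedDeriv_add' {f g : ℝ → ℂ} (hf : ContDiff ℝ ∞ f) (hg : ContDiff ℝ ∞ g) (n : ℕ) :
    iteratedDeriv n (fun x => f x + g x) = fun x => iteratedDeriv n f x + iteratedDeriv n g x := by
  funext x
  have := iteratedDeriv_add (n := n) (x := x) (hf.contDiffAt.of_le (by exact_mod_cast le_top))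
    (hg.contDiffAt.of_le (by exact_mod_cast le_top))
  exact this

lemma iteratedDeriv_cmul {f : ℝ → ℂ} (hf : ContDiff ℝ ∞ f) (c : ℂ) (n : ℕ) :
    iteratedDeriv n (fun x => c * f x) = fun x => c * iteratedDeriv n f x := by
  funext x
  exact iteratedDeriv_const_mul (n := n) (x := x) c (hf.contDiffAt.of_le (by exact_mod_cast le_top))

/-- uniform derivative bounds for the twisted functions -/
theorem Nice.tw_bound (n : ℕ) : ∀ {U : ℝ → ℂ}, Nice U a b →
    ∃ C : ℝ, 0 ≤ C ∧ ∀ t x : ℝ, ‖iteratedDeriv n (KER.tw U t) x‖ ≤ C * (1 + |t|) ^ n := by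
  induction n with
  | zero =>
    intro U H
    obtain ⟨C, hC⟩ := H.cont.bounded_above_of_compact_support H.hcs
    refine ⟨C, (norm_nonneg _).trans (hC 0), fun t x => ?_⟩
    rw [iteratedDeriv_zero, norm_tw, pow_zero, mul_one]
    exact hC x
  | succ n ih =>
    intro U H
    obtain ⟨C1, hC1, h1⟩ := ih H.deriv
    obtain ⟨C2, hC2, h2⟩ := ih H.divx
    refine ⟨C1 + C2, by positivity, fun t x => ?_⟩
    rw [iteratedDeriv_succ', H.deriv_tw t]
    rw [iteratedDeriv_add' (H.deriv.tw t).smooth (contDiff_const.mul (H.divx.tw t).smooth)]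
    simp only
    rw [iteratedDeriv_cmul (H.divx.tw t).smooth]
    refine (norm_add_le _ _).trans ?_
    rw [norm_mul, norm_mul, Complex.norm_I, mul_one, Complex.norm_real, Real.norm_eq_abs]
    have e1 := h1 t x
    have e2 := h2 t x
    have ht : 0 ≤ |t| := abs_nonneg t
    calc ‖iteratedDeriv n (KER.tw (_root_.deriv U) t) x‖ +
          |t| * ‖iteratedDeriv n (KER.tw (fun x => ((x⁻¹ : ℝ) : ℂ) * U x) t) x‖
        ≤ C1 * (1 + |t|) ^ n + |t| * (C2 * (1 + |t|) ^ n) := by gcongr
      _ ≤ (C1 + C2) * (1 + |t|) ^ (n + 1) := by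
        rw [pow_succ]
        have hp : 0 ≤ (1 + |t|) ^ n := by positivity
        nlinarith [mul_nonneg (mul_nonneg hC1 hp) ht, mul_nonneg hC2 hp]

end Vale.Agent.P006.KER
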