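import Vale.Agent.P006.KER.FCFinal
import Vale.Agent.P006.H2.Iface

/-!
`MSfix θ → FCHyp θ`: from the mean square of the non-normalised sums at proportional lengths to the
mean square of the normalised sums with moving lengths.
-/

namespace Vale.Agent.P006.KER

open Vale.Agent.P006 MeasureTheory Set Filter
open Vale.Agent.P006.V2 (FS FM FCHyp)
open scoped ContDiff Topology BigOperators

variable {U : ℝ → ℂ} {a b : ℝ}

/-- the weight `s^{-1/2} U(s)` -/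
noncomputable def hlf (U : ℝ → ℂ) (s : ℝ) : ℂ := (((Real.sqrt s)⁻¹ : ℝ) : ℂ) * U s

lemma Nice.hlf (H : Nice U a b) : Nice (hlf U) a b where
  smooth := by
    rw [contDiff_iff_contDiffAt]
    intro x
    by_cases hx : x < a
    · have : KER.hlf U =ᶠ[𝓝 x] fun _ => 0 := by
        filter_upwards [Iio_mem_nhds hx] with y hy
        unfold KER.hlf
        rw [H.eq_zero_of_le hy, mul_zero]
      exact contDiffAt_const.congr_of_eventuallyEq this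
    · have hx0 : 0 < x := by have := H.pos; linarith
      unfold KER.hlf
      apply ContDiffAt.mul _ H.smooth.contDiffAt
      apply Complex.ofRealCLM.contDiff.contDiffAt.comp
      exact (Real.contDiffAt_sqrt hx0.ne').inv (Real.sqrt_pos.2 hx0).ne'
  pos := H.pos
  le := H.le
  supp := fun x hx => by unfold KER.hlf; rw [H.supp x hx, mul_zero]

lemma cpow_add_half {Y : ℝ} (hY : 0 < Y) (t : ℝ) :
    (Y : ℂ) ^ ((5 / 6 : ℂ) + t * Complex.I) * ((Real.sqrt Y : ℝ) : ℂ) =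
      (Y : ℂ) ^ ((t : ℂ) * Complex.I) * ((Y ^ (4 / 3 : ℝ) : ℝ) : ℂ) := by
  rw [V2.cpow_split hY t, mul_assoc, ← Complex.ofReal_mul]
  congr 2
  rw [Real.sqrt_eq_rpow, ← Real.rpow_add hY]
  norm_num

lemma mellin_hlf (U : ℝ → ℂ) (t : ℝ) :
    mellin (hlf U) ((4 / 3 : ℂ) + t * Complex.I) = mellin U ((5 / 6 : ℂ) + t * Complex.I) := by
  unfold mellin
  apply setIntegral_congr_fun measurableSet_Ioi
  intro x hx
  have hx' : (0 : ℝ) < x := hx
  have hxc : (x : ℂ) ≠ 0 := by exact_mod_cast hx'.ne'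
  simp only [smul_eq_mul]
  unfold hlf
  have e1 : ((4 / 3 : ℂ) + t * Complex.I - 1) = ((5 / 6 : ℂ) + t * Complex.I - 1) + ((1 / 2 : ℝ) : ℂ) := by
    push_cast; ring
  rw [e1, Complex.cpow_add _ _ hxc, ← Complex.ofReal_cpow hx'.le, ← Real.sqrt_eq_rpow]
  have e2 : ((Real.sqrt x : ℝ) : ℂ) * (((Real.sqrt x)⁻¹ : ℝ) : ℂ) = 1 := by
    rw [← Complex.ofReal_mul, mul_inv_cancel₀ (Real.sqrt_pos.2 hx').ne', Complex.ofReal_one]
  linear_combination ((x : ℂ) ^ ((5 / 6 : ℂ) + t * Complex.I - 1) * U x) * e2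

lemma Sg_eq_FS (U : ℝ → ℂ) (t : ℝ) (m : O) {Y : ℝ} (hY : 0 < Y) :
    FC.Sg (tw (hlf U) t) m Y =
      ((Real.sqrt Y : ℝ) : ℂ) * ((Y : ℂ) ^ (-((t : ℂ) * Complex.I)) * FS U t m Y) := by
  classical
  have h1 : FS U t m Y = ∑' d : FC.PD, gt m d * ((N (d : O) : ℂ) ^ ((t : ℂ) * Complex.I) * U (N (d : O) / Y)) := by
    unfold FS
    have h2 := tsum_subtype {c : O | Primary c}
      (fun c => gt m c * ((N c : ℂ) ^ ((t : ℂ) * Complex.I) * U (N c / Y)))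
    have h3 : (∑' c : O, if Primary c then gt m c * ((N c : ℂ) ^ ((t : ℂ) * Complex.I) * U (N c / Y)) else 0) =
        ∑' c : O, ({c : O | Primary c} : Set O).indicator
          (fun c => gt m c * ((N c : ℂ) ^ ((t : ℂ) * Complex.I) * U (N c / Y))) c := by
      apply tsum_congr
      intro c
      by_cases hc : Primary c
      · rw [if_pos hc, Set.indicator_of_mem (by exact hc)]
      · rw [if_neg hc, Set.indicator_of_notMem (by exact hc)]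
    exact h3.trans h2.symm
  rw [h1, ← tsum_mul_left, ← tsum_mul_left]
  unfold FC.Sg
  apply tsum_congr
  intro d
  have hd0 : (d : O) ≠ 0 := d.2.ne_zero
  have hN : (0 : ℝ) < N (d : O) := by exact_mod_cast N_pos hd0
  have hNY : 0 < (N (d : O) : ℝ) / Y := by positivity
  rw [FC.gs_eq m hd0, tw_eq_cpow _ t hNY]
  unfold hlf
  have e1 : (((N (d : O) : ℝ) / Y : ℝ) : ℂ) ^ ((t : ℂ) * Complex.I) =
      (N (d : O) : ℂ) ^ ((t : ℂ) * Complex.I) * (Y : ℂ) ^ (-((t : ℂ) * Complex.I)) := by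
    rw [div_eq_mul_inv, Complex.ofReal_mul, Complex.mul_cpow_ofReal_nonneg hN.le (by positivity)]
    congr 1
    rw [Complex.cpow_neg, Complex.ofReal_inv, Complex.inv_cpow]
    rw [Complex.arg_ofReal_of_nonneg hY.le]
    exact Real.pi_pos.ne
  have e2 : Real.sqrt ((N (d : O) : ℝ) / Y) = Real.sqrt (N (d : O)) / Real.sqrt Y := Real.sqrt_div hN.le _
  have hsN : (Real.sqrt (N (d : O)) : ℂ) ≠ 0 := by exact_mod_cast (Real.sqrt_pos.2 hN).ne'
  have hsY : (Real.sqrt Y : ℂ) ≠ 0 := by exact_mod_cast (Real.sqrt_pos.2 hY).ne'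
  rw [e1, e2, gt]
  push_cast
  field_simp

/-- comparison of the errors -/
lemma norm_Sg_sub (U : ℝ → ℂ) (t : ℝ) (m : O) (θ : ℂ) {Y : ℝ} (hY : 0 < Y) :
    ‖FS U t m Y - FM U t θ Y‖ ^ 2 = Y⁻¹ * ‖FC.Sg (tw (hlf U) t) m Y -
      θ * ((Y ^ (4 / 3 : ℝ) : ℝ) : ℂ) * mellin (hlf U) ((4 / 3 : ℂ) + t * Complex.I)‖ ^ 2 := by
  have hYc : (Y : ℂ) ≠ 0 := by exact_mod_cast hY.ne'
  have e3 : (Y : ℂ) ^ (-((t : ℂ) * Complex.I)) * (Y : ℂ) ^ ((t : ℂ) * Complex.I) = 1 := by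
    rw [← Complex.cpow_add _ _ hYc, neg_add_cancel, Complex.cpow_zero]
  have h1 : FC.Sg (tw (hlf U) t) m Y -
      θ * ((Y ^ (4 / 3 : ℝ) : ℝ) : ℂ) * mellin (hlf U) ((4 / 3 : ℂ) + t * Complex.I) =
      ((Real.sqrt Y : ℝ) : ℂ) * ((Y : ℂ) ^ (-((t : ℂ) * Complex.I)) * (FS U t m Y - FM U t θ Y)) := by
    rw [Sg_eq_FS U t m hY, mellin_hlf]
    unfold FM
    have := cpow_add_half hY t
    linear_combination (θ * mellin U ((5 / 6 : ℂ) + t * Complex.I)) *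
      ((Y : ℂ) ^ (-((t : ℂ) * Complex.I)) * this + ((Y ^ (4 / 3 : ℝ) : ℝ) : ℂ) * e3)
  have h2 : ‖(Y : ℂ) ^ (-((t : ℂ) * Complex.I))‖ = 1 := by
    rw [Complex.norm_cpow_eq_rpow_re_of_pos hY]
    simp
  rw [h1, norm_mul, norm_mul, h2, one_mul, Complex.norm_real, Real.norm_of_nonneg (Real.sqrt_nonneg _),
    mul_pow, Real.sq_sqrt hY.le]
  field_simp

/-- the constant `k_ν / ‖ν‖` -/
noncomputable def ck : ℝ := 4 * Real.pi / ‖toC lam‖ ^ 3

lemma kf_eq (ν : O) : FC.kf ν = ck * ‖toC ν‖ := by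
  unfold FC.kf FC.mun ck
  rw [norm_neg, norm_div, norm_pow]
  ring

lemma norm_lam3 : ‖toC lam‖ ^ 3 = 3 * Real.sqrt 3 := by
  rw [norm_toC, N_lam]
  have : Real.sqrt 3 ^ 2 = 3 := Real.sq_sqrt (by norm_num)
  push_cast
  calc Real.sqrt 3 ^ 3 = Real.sqrt 3 ^ 2 * Real.sqrt 3 := by ring
    _ = _ := by rw [this]

lemma ck_pos : 0 < ck := by
  unfold ck
  rw [norm_lam3]
  positivity

lemma one_le_ck : 1 ≤ ck := by
  unfold ck
  rw [norm_lam3, le_div_iff₀ (by positivity)]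
  have h1 : Real.sqrt 3 ≤ 2 := by
    rw [Real.sqrt_le_left (by norm_num)]; norm_num
  have := Real.pi_gt_three
  nlinarith

lemma ck_le : ck ≤ 4 := by
  unfold ck
  rw [norm_lam3, div_le_iff₀ (by positivity)]
  have h1 : 1 ≤ Real.sqrt 3 := by
    rw [Real.one_le_sqrt]; norm_num
  have h2 : 1.7 ≤ Real.sqrt 3 := Real.le_sqrt_of_sq_le (by norm_num)
  have := Real.pi_lt_d2
  nlinarith

theorem fxHyp_of_MSfix {θ : O → ℂ} (h : FC.MSfix θ) : FXHyp θ := by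
  intro U a b H ε hε
  obtain ⟨C, hC, h1⟩ := h _ a b H.hlf ε hε (1 / 2) (by norm_num)
  refine ⟨C * 15 ^ ε * 16, by positivity, ?_⟩
  intro K Y t hK hY S hS
  have hK0 : 0 < K := by linarith
  have hY0 : 0 < Y := by linarith
  have hT1 : 1 ≤ 1 + |t| := by linarith [abs_nonneg t]
  have hT0 : 0 < 1 + |t| := by linarith
  have hck := ck_pos
  have hck1 := one_le_ck
  have hck4 := ck_le
  have hS' : ∀ ν ∈ S, ν ≠ 0 ∧ ck * K ≤ FC.kf ν ∧ FC.kf ν ≤ 2 * (ck * K) := by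
    intro ν hν
    obtain ⟨e1, e2⟩ := hS ν hν
    refine ⟨?_, ?_, ?_⟩
    · rintro rfl
      rw [map_zero, norm_zero] at e1
      linarith
    · rw [kf_eq]; gcongr
    · rw [kf_eq]
      calc ck * ‖toC ν‖ ≤ ck * (2 * K) := by gcongr
        _ = _ := by ring
  have h2 := h1 t (ck * K) Y (by nlinarith) hY S hS'
  have hcg : ∑ m ∈ S, ‖FS U t m (Y * (‖toC m‖ / K)) - FM U t (θ m) (Y * (‖toC m‖ / K))‖ ^ 2 ≤
      Y⁻¹ * ∑ ν ∈ S, ‖FC.Sg (tw (hlf U) t) ν (Y * FC.kf ν / (ck * K)) -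
          θ ν * (((Y * FC.kf ν / (ck * K)) ^ (4 / 3 : ℝ) : ℝ) : ℂ) *
            mellin (hlf U) ((4 / 3 : ℂ) + t * Complex.I)‖ ^ 2 := by
    rw [Finset.mul_sum]
    apply Finset.sum_le_sum
    intro m hm
    obtain ⟨e1, e2⟩ := hS m hm
    have hκ : 1 ≤ ‖toC m‖ / K := by rw [le_div_iff₀ hK0]; linarith
    have hy : 0 < Y * (‖toC m‖ / K) := by positivity
    rw [norm_Sg_sub U t m (θ m) hy, kf_eq,
      show Y * (ck * ‖toC m‖) / (ck * K) = Y * (‖toC m‖ / K) by field_simp]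
    apply mul_le_mul_of_nonneg_right _ (by positivity)
    apply inv_anti₀ hY0
    nlinarith
  refine hcg.trans ?_
  have e5 : (2 + ck * K + Y + |t|) ^ ε ≤ 15 ^ ε * (K * Y * (1 + |t|)) ^ ε := by
    rw [← Real.mul_rpow (by norm_num) (by positivity)]
    apply Real.rpow_le_rpow (by positivity) _ hε.le
    have hq : 1 ≤ K * (1 + |t|) := one_le_mul_of_one_le_of_one_le hK hT1
    have q1 : 2 ≤ 4 * (K * Y * (1 + |t|)) := by nlinarith
    have q2 : ck * K ≤ 4 * (2 * (K * Y * (1 + |t|))) := by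
      have : K ≤ 2 * (K * Y * (1 + |t|)) := by
        have h3 : 1 ≤ 2 * (Y * (1 + |t|)) := by nlinarith
        nlinarith
      nlinarith
    have q3 : Y ≤ K * Y * (1 + |t|) := by nlinarith
    have q4 : |t| ≤ 2 * (K * Y * (1 + |t|)) := by
      have h3 : 1 / 2 ≤ K * Y := by nlinarith
      nlinarith
    nlinarith
  have e6 : Y⁻¹ * (Y ^ 2 * ((ck * K) ^ 2 * (1 + |t|) + (1 + |t|) ^ 3)) ≤
      16 * (K ^ 2 * Y * (1 + |t|) + Y * (1 + |t|) ^ 3) := by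
    have : Y⁻¹ * (Y ^ 2 * ((ck * K) ^ 2 * (1 + |t|) + (1 + |t|) ^ 3)) =
        ck ^ 2 * (K ^ 2 * Y * (1 + |t|)) + Y * (1 + |t|) ^ 3 := by field_simp
    rw [this]
    have hc2 : ck ^ 2 ≤ 16 := by nlinarith
    have p1 : 0 ≤ K ^ 2 * Y * (1 + |t|) := by positivity
    have p2 : 0 ≤ Y * (1 + |t|) ^ 3 := by positivity
    nlinarith
  calc Y⁻¹ * ∑ ν ∈ S, ‖FC.Sg (tw (hlf U) t) ν (Y * FC.kf ν / (ck * K)) -
          θ ν * (((Y * FC.kf ν / (ck * K)) ^ (4 / 3 : ℝ) : ℝ) : ℂ) *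
            mellin (hlf U) ((4 / 3 : ℂ) + t * Complex.I)‖ ^ 2
      ≤ Y⁻¹ * (C * (2 + ck * K + Y + |t|) ^ ε * (Y ^ 2 * ((ck * K) ^ 2 * (1 + |t|) + (1 + |t|) ^ 3))) := by
        gcongr
    _ = C * (2 + ck * K + Y + |t|) ^ ε * (Y⁻¹ * (Y ^ 2 * ((ck * K) ^ 2 * (1 + |t|) + (1 + |t|) ^ 3))) := by
        ring
    _ ≤ C * (15 ^ ε * (K * Y * (1 + |t|)) ^ ε) * (16 * (K ^ 2 * Y * (1 + |t|) + Y * (1 + |t|) ^ 3)) := by
        gcongr
    _ = _ := by ring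

/-- **From `MSfix` to the automorphic input of the Type I sums.** -/
theorem FCHyp_of_MSfix {θ : O → ℂ} (h : FC.MSfix θ) : FCHyp θ := fcHyp_of_FX (fxHyp_of_MSfix h)

end Vale.Agent.P006.KER
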