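import Mathlib
import Vale.Agent.P006.KER.Twist

/-!
Block KER-4: exact `L²` norms of the profile and their decay in the twist.
-/

open MeasureTheory Set Filter
open scoped Topology FourierTransform ContDiff

namespace Vale.Agent.P006.KER

variable {h U W : ℝ → ℂ} {a b : ℝ}

lemma norm_Tf_le (h : ℝ → ℂ) (x : ℝ) : ‖Tf h x‖ ≤ 1 / 2 * ∫ τ, ‖Gf h τ‖ := by
  unfold Tf
  rw [norm_mul]
  have : ‖(1 / 2 : ℂ)‖ = 1 / 2 := by simp
  rw [this]
  have := VectorFourier.norm_fourierIntegral_le_integral_norm Real.fourierChar volume (innerₗ ℝ)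
    (Gf h) (x / (2 * Real.pi))
  gcongr
  exact this

lemma Nice.integrable_pow_sq_Tf (H : Nice h a b) (n : ℕ) :
    Integrable (fun x : ℝ => |x| ^ n * ‖Tf h x‖ ^ 2) := by
  have h1 := (H.integrable_pow_Tf n).mul_const (1 / 2 * ∫ τ, ‖Gf h τ‖)
  refine h1.mono' ?_ (Eventually.of_forall fun x => ?_)
  · have := H.Tf_cont
    exact (by fun_prop : Continuous fun x : ℝ => |x| ^ n * ‖Tf h x‖ ^ 2).aestronglyMeasurable
  · rw [Real.norm_of_nonneg (by positivity), sq, ← mul_assoc]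
    gcongr
    exact norm_Tf_le h x

lemma Nice.integrable_sq_Tf (H : Nice h a b) : Integrable (fun x : ℝ => ‖Tf h x‖ ^ 2) := by
  simpa using H.integrable_pow_sq_Tf 0

lemma Nice.integrable_mul_sq_Tf (H : Nice h a b) : Integrable (fun x : ℝ => x * ‖Tf h x‖ ^ 2) := by
  refine (H.integrable_pow_sq_Tf 1).mono' ?_ (Eventually.of_forall fun x => ?_)
  · have := H.Tf_cont
    exact (by fun_prop : Continuous fun x : ℝ => x * ‖Tf h x‖ ^ 2).aestronglyMeasurable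
  · simp

lemma Nice.integrable_sq_mul_Tf (H : Nice h a b) : Integrable (fun x : ℝ => ‖(x : ℂ) * Tf h x‖ ^ 2) := by
  refine (H.integrable_pow_sq_Tf 2).congr (Eventually.of_forall fun x => ?_)
  simp [mul_pow]

/-- Plancherel for `T` -/
theorem Nice.integral_sq_Tf (H : Nice h a b) :
    ∫ x, ‖Tf h x‖ ^ 2 = (Real.pi / 2) * ∫ τ, ‖Gf h τ‖ ^ 2 := by
  have h1 : ∫ ξ : ℝ, ‖𝓕 (Gf h) ξ‖ ^ 2 = ∫ τ, ‖Gf h τ‖ ^ 2 := by
    have := SchwartzMap.integral_norm_sq_fourier H.Gs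
    rw [← H.fourier_Gf, H.Gs_coe] at this
    exact this
  unfold Tf
  have h2 := Measure.integral_comp_div (fun ξ : ℝ => (1 / 4 : ℝ) * ‖𝓕 (Gf h) ξ‖ ^ 2) (2 * Real.pi)
  rw [integral_const_mul, integral_const_mul, h1, abs_of_pos (by positivity), smul_eq_mul] at h2
  have h3 : ∫ x : ℝ, ‖(1 / 2 : ℂ) * 𝓕 (Gf h) (x / (2 * Real.pi))‖ ^ 2 =
      ∫ x : ℝ, (1 / 4 : ℝ) * ‖𝓕 (Gf h) (x / (2 * Real.pi))‖ ^ 2 := by
    apply integral_congr_ae
    refine Eventually.of_forall fun x => ?_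
    simp only [norm_mul, mul_pow]
    norm_num
  rw [h3, integral_const_mul, h2]
  ring

/-- Fourier transform of the odd extension -/
lemma Nice.fourier_oddf (H : Nice h a b) :
    𝓕 (oddf h) = fun ξ : ℝ => -((2 * Real.pi * Complex.I * ξ) * 𝓕 (Gf h) ξ) := by
  have h1 := Real.fourier_deriv H.Gf_integrable (H.Gf_smooth.differentiable (by simp))
    (by rw [H.deriv_Gf]; exact H.oddf_integrable.neg)
  rw [H.deriv_Gf] at h1
  have e : (fun τ => -oddf h τ) = -(oddf h) := rfl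
  have h3 : 𝓕 (fun τ => -oddf h τ) = -𝓕 (oddf h) := by
    funext ξ
    rw [Real.fourier_eq', Pi.neg_apply, Real.fourier_eq', ← integral_neg]
    congr 1
    funext v
    simp
  rw [h3] at h1
  funext ξ
  have := congrFun h1 ξ
  simp only [Pi.neg_apply, smul_eq_mul] at this
  rw [← this]; ring

lemma Nice.integrable_sq (H : Nice h a b) : Integrable fun τ => ‖h τ‖ ^ 2 := by
  have hc : Continuous fun τ => ‖h τ‖ ^ 2 := by have := H.cont; fun_prop
  refine hc.integrable_of_hasCompactSupport ?_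
  refine HasCompactSupport.intro isCompact_Icc (K := Icc a b) fun x hx => ?_
  rw [H.supp x hx]; simp

/-- Plancherel for `x T(x)` -/
theorem Nice.integral_sq_mul_Tf (H : Nice h a b) :
    ∫ x : ℝ, ‖(x : ℂ) * Tf h x‖ ^ 2 = Real.pi * ∫ t, ‖h t‖ ^ 2 := by
  have h1 : ∫ ξ : ℝ, ‖𝓕 (oddf h) ξ‖ ^ 2 = ∫ τ, ‖oddf h τ‖ ^ 2 := by
    have := SchwartzMap.integral_norm_sq_fourier (H.oddf_hcs.toSchwartzMap H.oddf_smooth)
    rw [SchwartzMap.fourier_coe] at this
    exact this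
  have h2 := Measure.integral_comp_div (fun ξ : ℝ => (1 / 4 : ℝ) * ‖𝓕 (oddf h) ξ‖ ^ 2) (2 * Real.pi)
  rw [integral_const_mul, integral_const_mul, h1, abs_of_pos (by positivity), smul_eq_mul] at h2
  have h3 : ∫ x : ℝ, ‖(x : ℂ) * Tf h x‖ ^ 2 =
      ∫ x : ℝ, (1 / 4 : ℝ) * ‖𝓕 (oddf h) (x / (2 * Real.pi))‖ ^ 2 := by
    apply integral_congr_ae
    refine Eventually.of_forall fun x => ?_
    simp only
    rw [H.fourier_oddf]
    unfold Tf
    simp only [norm_mul, mul_pow, norm_neg, Complex.norm_I, Complex.norm_real, Real.norm_eq_abs,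
      sq_abs, div_pow]
    norm_num
    have : Real.pi ≠ 0 := Real.pi_ne_zero
    field_simp
  have h4 : ∫ τ, ‖oddf h τ‖ ^ 2 = 2 * ∫ t, ‖h t‖ ^ 2 := by
    have h5 : (fun τ => ‖oddf h τ‖ ^ 2) = fun τ => ‖h τ‖ ^ 2 + ‖h (-τ)‖ ^ 2 := by
      funext τ
      unfold oddf
      rcases le_total 0 τ with h0 | h0
      · rw [H.eq_zero_of_nonpos (x := -τ) (by linarith)]; simp
      · rw [H.eq_zero_of_nonpos h0]; simp
    have hi : Integrable fun τ => ‖h τ‖ ^ 2 := H.integrable_sq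
    have hi2 : Integrable fun τ => ‖h (-τ)‖ ^ 2 := hi.comp_neg
    rw [h5, integral_add hi hi2]
    have h6 := integral_neg_eq_self (fun τ => ‖h τ‖ ^ 2) volume
    rw [h6]
    ring
  rw [h3, integral_const_mul, h2, h4]
  ring

/-- half-line version -/
lemma integral_even {f : ℝ → ℝ} (hf : Integrable f) (he : ∀ x, f (-x) = f x) :
    ∫ x, f x = 2 * ∫ x in Ioi (0 : ℝ), f x := by
  rw [← integral_add_compl (measurableSet_Ioi (a := (0 : ℝ))) hf, compl_Ioi]
  have h4 := integral_comp_neg_Ioi (0 : ℝ) f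
  rw [neg_zero] at h4
  simp only [he] at h4
  rw [← h4]
  ring

theorem Nice.integral_sq_Tf_Ioi (H : Nice h a b) :
    ∫ x in Ioi (0 : ℝ), ‖Tf h x‖ ^ 2 = (Real.pi / 4) * ∫ τ, ‖Gf h τ‖ ^ 2 := by
  have := integral_even H.integrable_sq_Tf (fun x => by rw [Tf_neg])
  rw [H.integral_sq_Tf] at this
  linarith

theorem Nice.integral_sq_mul_Tf_Ioi (H : Nice h a b) :
    ∫ x in Ioi (0 : ℝ), ‖(x : ℂ) * Tf h x‖ ^ 2 = Real.pi / 2 * ∫ t, ‖h t‖ ^ 2 := by
  have := integral_even H.integrable_sq_mul_Tf (fun x => by rw [Tf_neg]; simp)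
  rw [H.integral_sq_mul_Tf] at this
  linarith

/-- the weight `hW` of a twisted weight -/
lemma hW_tw (H : Nice U a b) (t : ℝ) :
    hW (tw U t) = fun x => Complex.exp (((-(t * Real.log 2) : ℝ) : ℂ) * Complex.I) * tw (hW U) (-t) x := by
  funext x
  unfold hW tw
  rcases le_or_gt x 0 with hx | hx
  · have h0 := H.eq_zero_of_nonpos (x := 1 / (2 * x))
      (div_nonpos_of_nonneg_of_nonpos zero_le_one (by linarith))
    simp only [h0, mul_zero, zero_div]
  · have e : Real.log (1 / (2 * x)) = -Real.log 2 - Real.log x := by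
      rw [one_div, Real.log_inv, Real.log_mul two_ne_zero hx.ne']; ring
    rw [e]
    have e2 : Complex.exp (((t * (-Real.log 2 - Real.log x) : ℝ) : ℂ) * Complex.I) =
        Complex.exp (((-(t * Real.log 2) : ℝ) : ℂ) * Complex.I) *
          Complex.exp (((-t * Real.log x : ℝ) : ℂ) * Complex.I) := by
      rw [← Complex.exp_add]; congr 1; push_cast; ring
    rw [e2]; ring

lemma norm_hW_tw (U : ℝ → ℂ) (t x : ℝ) : ‖hW (tw U t) x‖ = ‖hW U x‖ := by
  unfold hW; rw [norm_div, norm_div, norm_tw]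

/-- `|∫_τ^∞ s^{it} U| ≤ C/(1+|t|)` -/
theorem Nice.Gf_tw_bound (H : Nice U a b) : ∃ C : ℝ, 0 ≤ C ∧ ∀ t τ : ℝ,
    ‖Gf (KER.tw U t) τ‖ ≤ C / (1 + |t|) := by
  have hs : ContDiff ℝ ∞ (fun s : ℝ => (s : ℂ) * U s) :=
    Complex.ofRealCLM.contDiff.mul H.smooth
  have hsc : HasCompactSupport (fun s : ℝ => (s : ℂ) * U s) := H.hcs.mul_left
  obtain ⟨C1, hC1⟩ := hs.continuous.bounded_above_of_compact_support hsc
  have hC10 : 0 ≤ C1 := (norm_nonneg _).trans (hC1 0)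
  set C2 : ℝ := ∫ s : ℝ, ‖(s : ℂ) * _root_.deriv U s‖ with hC2
  have hC20 : 0 ≤ C2 := integral_nonneg fun s => norm_nonneg _
  have hd : Integrable fun s : ℝ => ‖(s : ℂ) * _root_.deriv U s‖ := by
    refine (Continuous.integrable_of_hasCompactSupport ?_ ?_)
    · have := H.deriv.cont; fun_prop
    · exact (H.deriv.hcs.mul_left (f := fun s : ℝ => (s : ℂ))).norm
  refine ⟨2 * (C1 + C2), by positivity, ?_⟩
  intro t
  have key : ∀ τ : ℝ, 0 ≤ τ → ‖Gf (KER.tw U t) τ‖ ≤ 2 * (C1 + C2) / (1 + |t|) := by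
    intro τ hτ
    have Ht := H.tw t
    rw [Ht.Gf_eq hτ]
    have hf : ContDiff ℝ ∞ (fun s : ℝ => (s : ℂ) * KER.tw U t s) :=
      Complex.ofRealCLM.contDiff.mul Ht.smooth
    have hfc : HasCompactSupport (fun s : ℝ => (s : ℂ) * KER.tw U t s) := Ht.hcs.mul_left
    have h1 := HasCompactSupport.integral_Ioi_deriv_eq (hf.of_le (by exact_mod_cast le_top)) hfc τ
    have h2 : _root_.deriv (fun s : ℝ => (s : ℂ) * KER.tw U t s) = fun s =>
        (1 + t * Complex.I) * KER.tw U t s + (s : ℂ) * KER.tw (_root_.deriv U) t s := by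
      funext s
      have e1 : HasDerivAt (fun s : ℝ => (s : ℂ)) 1 s := Complex.ofRealCLM.hasDerivAt
      have e2 : HasDerivAt (KER.tw U t) (_root_.deriv (KER.tw U t) s) s :=
        ((Ht.smooth.differentiable (by simp)) s).hasDerivAt
      have e3 : HasDerivAt (fun s : ℝ => (s : ℂ) * KER.tw U t s)
        (1 * KER.tw U t s + (s : ℂ) * _root_.deriv (KER.tw U t) s) s := e1.mul e2
      rw [e3.deriv, H.deriv_tw t]
      unfold KER.tw
      rcases eq_or_ne s 0 with rfl | hs0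
      · simp [H.eq_zero_of_nonpos le_rfl]
      · have hsc : (s : ℂ) ≠ 0 := by exact_mod_cast hs0
        push_cast
        field_simp
        ring
    rw [h2, integral_add (Ht.integrable.const_mul _).integrableOn, integral_const_mul] at h1
    · have h3 : ‖(1 + t * Complex.I) * ∫ s in Ioi τ, KER.tw U t s‖ ≤ C1 + C2 := by
        have e : (1 + t * Complex.I) * ∫ s in Ioi τ, KER.tw U t s =
            -((τ : ℂ) * KER.tw U t τ) - ∫ s in Ioi τ, (s : ℂ) * KER.tw (_root_.deriv U) t s := by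
          rw [← h1]; ring
        rw [e]
        refine (norm_sub_le _ _).trans ?_
        rw [norm_neg, norm_mul, norm_tw, ← norm_mul]
        have e5 : ‖∫ s in Ioi τ, (s : ℂ) * KER.tw (_root_.deriv U) t s‖ ≤ C2 := by
          refine (norm_integral_le_integral_norm _).trans ?_
          simp only [norm_mul, norm_tw]
          simp only [← norm_mul]
          exact setIntegral_le_integral hd (Eventually.of_forall fun s => norm_nonneg _)
        exact add_le_add (hC1 τ) e5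
      rw [norm_mul] at h3
      have h4 : (1 + |t|) / 2 ≤ ‖(1 + t * Complex.I : ℂ)‖ := by
        have e1 : (1 : ℝ) ≤ ‖(1 + t * Complex.I : ℂ)‖ := by
          have := Complex.abs_re_le_norm (1 + t * Complex.I : ℂ)
          simpa using this
        have e2 : |t| ≤ ‖(1 + t * Complex.I : ℂ)‖ := by
          have := Complex.abs_im_le_norm (1 + t * Complex.I : ℂ)
          simpa using this
        linarith
      have ht : 0 < 1 + |t| := by positivity
      rw [le_div_iff₀ ht]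
      have := mul_le_mul_of_nonneg_right h4 (norm_nonneg (∫ s in Ioi τ, KER.tw U t s))
      nlinarith
    · refine (Continuous.integrable_of_hasCompactSupport ?_ ?_).integrableOn
      · have := (H.deriv.tw t).cont; fun_prop
      · exact (H.deriv.tw t).hcs.mul_left
  intro τ
  rcases le_total 0 τ with h0 | h0
  · exact key τ h0
  · rw [← Gf_neg]; exact key (-τ) (by linarith)

lemma Gf_cmul (c : ℂ) (h : ℝ → ℂ) (τ : ℝ) : Gf (fun x => c * h x) τ = c * Gf h τ := by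
  unfold Gf oddf
  rw [integral_const_mul]
  simp only [← mul_sub]
  rw [intervalIntegral.integral_const_mul, mul_sub]

theorem Nice.Gf_hW_tw_bound (H : Nice U a b) : ∃ C : ℝ, 0 ≤ C ∧ ∀ t τ : ℝ,
    ‖Gf (KER.hW (KER.tw U t)) τ‖ ≤ C / (1 + |t|) := by
  obtain ⟨C, hC, h1⟩ := H.hW.Gf_tw_bound
  refine ⟨C, hC, fun t τ => ?_⟩
  rw [hW_tw H t, Gf_cmul, norm_mul, Complex.norm_exp_ofReal_mul_I, one_mul]
  have := h1 (-t) τ
  rwa [abs_neg] at this

/-- `∫_0^∞ |x T|² ≤ C` uniformly in the twist -/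
theorem Nice.sqS_bound (H : Nice U a b) : ∃ C : ℝ, 0 ≤ C ∧ ∀ t : ℝ,
    ∫ x in Ioi (0 : ℝ), ‖(x : ℂ) * Tf (KER.hW (KER.tw U t)) x‖ ^ 2 ≤ C := by
  refine ⟨Real.pi / 2 * ∫ x, ‖KER.hW U x‖ ^ 2, by positivity, fun t => ?_⟩
  rw [(H.tw t).hW.integral_sq_mul_Tf_Ioi]
  simp only [norm_hW_tw, le_refl]

/-- `∫_0^∞ |T|² ≤ C/(1+|t|)²` -/
theorem Nice.sqT_bound (H : Nice U a b) : ∃ C : ℝ, 0 ≤ C ∧ ∀ t : ℝ,
    ∫ x in Ioi (0 : ℝ), ‖Tf (KER.hW (KER.tw U t)) x‖ ^ 2 ≤ C / (1 + |t|) ^ 2 := by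
  obtain ⟨C, hC, h1⟩ := H.Gf_hW_tw_bound
  have ha := H.pos
  refine ⟨Real.pi / 4 * (C ^ 2 * (1 / a)), by positivity, fun t => ?_⟩
  have Ht := (H.tw t).hW
  rw [Ht.integral_sq_Tf_Ioi]
  have h2 : ∫ τ, ‖Gf (KER.hW (KER.tw U t)) τ‖ ^ 2 ≤ (C / (1 + |t|)) ^ 2 * (1 / a) := by
    have e1 : ∫ τ, ‖Gf (KER.hW (KER.tw U t)) τ‖ ^ 2 =
        ∫ τ in Icc (-(1 / (2 * a))) (1 / (2 * a)), ‖Gf (KER.hW (KER.tw U t)) τ‖ ^ 2 := by
      symm
      apply setIntegral_eq_integral_of_forall_compl_eq_zero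
      intro τ hτ
      have : 1 / (2 * a) < |τ| := by
        by_contra hcon
        exact hτ (abs_le.1 (not_lt.1 hcon))
      rw [Ht.Gf_zero_of_lt this]
      simp
    rw [e1]
    have e2 := norm_setIntegral_le_of_norm_le_const (μ := volume) (s := Icc (-(1 / (2 * a))) (1 / (2 * a)))
      (f := fun τ => ‖Gf (KER.hW (KER.tw U t)) τ‖ ^ 2) (C := (C / (1 + |t|)) ^ 2)
      (by rw [Real.volume_Icc]; exact ENNReal.ofReal_lt_top)
      (fun τ _ => by
        rw [Real.norm_of_nonneg (by positivity)]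
        exact pow_le_pow_left₀ (norm_nonneg _) (h1 t τ) 2)
    refine (Real.le_norm_self _).trans (e2.trans (le_of_eq ?_))
    rw [Real.volume_real_Icc_of_le (by
      have : 0 < 1 / (2 * a) := by positivity
      linarith)]
    congr 1
    field_simp
    ring
  calc Real.pi / 4 * ∫ τ, ‖Gf (KER.hW (KER.tw U t)) τ‖ ^ 2
      ≤ Real.pi / 4 * ((C / (1 + |t|)) ^ 2 * (1 / a)) := by gcongr
    _ = _ := by rw [div_pow]; ring

/-- `∫_0^∞ x |T|² ≤ C/(1+|t|)` -/
theorem Nice.mulsqT_bound (H : Nice U a b) : ∃ C : ℝ, 0 ≤ C ∧ ∀ t : ℝ,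
    ∫ x in Ioi (0 : ℝ), x * ‖Tf (KER.hW (KER.tw U t)) x‖ ^ 2 ≤ C / (1 + |t|) := by
  obtain ⟨C1, hC1, h1⟩ := H.sqS_bound
  obtain ⟨C2, hC2, h2⟩ := H.sqT_bound
  refine ⟨(C1 + C2) / 2, by positivity, fun t => ?_⟩
  have Ht := (H.tw t).hW
  have ht : 0 < 1 + |t| := by positivity
  have h3 : ∫ x in Ioi (0 : ℝ), x * ‖Tf (KER.hW (KER.tw U t)) x‖ ^ 2 ≤
      ∫ x in Ioi (0 : ℝ), ((1 / 2 * (1 / (1 + |t|))) * ‖(x : ℂ) * Tf (KER.hW (KER.tw U t)) x‖ ^ 2 +
        (1 / 2 * (1 + |t|)) * ‖Tf (KER.hW (KER.tw U t)) x‖ ^ 2) := by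
    apply integral_mono_of_nonneg
    · filter_upwards [ae_restrict_mem measurableSet_Ioi] with x hx
      have hx' : (0 : ℝ) < x := hx
      simp only [Pi.zero_apply]
      positivity
    · exact ((Ht.integrable_sq_mul_Tf.const_mul _).add (Ht.integrable_sq_Tf.const_mul _)).integrableOn
    · filter_upwards [ae_restrict_mem measurableSet_Ioi] with x hx
      rw [norm_mul, mul_pow, Complex.norm_real, Real.norm_eq_abs, sq_abs]
      have h5 : x ≤ 1 / 2 * (1 / (1 + |t|)) * x ^ 2 + 1 / 2 * (1 + |t|) := by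
        have := sq_nonneg (x / (1 + |t|) - 1)
        have e : 1 / 2 * (1 / (1 + |t|)) * x ^ 2 + 1 / 2 * (1 + |t|) - x =
            (1 + |t|) / 2 * (x / (1 + |t|) - 1) ^ 2 := by
          field_simp
          ring
        nlinarith [mul_nonneg (by positivity : 0 ≤ (1 + |t|) / 2) this]
      have h6 := mul_le_mul_of_nonneg_right h5 (sq_nonneg ‖Tf (KER.hW (KER.tw U t)) x‖)
      linarith
  rw [integral_add (Ht.integrable_sq_mul_Tf.const_mul _).integrableOn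
    (Ht.integrable_sq_Tf.const_mul _).integrableOn, integral_const_mul, integral_const_mul] at h3
  refine h3.trans ?_
  calc 1 / 2 * (1 / (1 + |t|)) * (∫ x in Ioi (0 : ℝ), ‖(x : ℂ) * Tf (KER.hW (KER.tw U t)) x‖ ^ 2) +
        1 / 2 * (1 + |t|) * ∫ x in Ioi (0 : ℝ), ‖Tf (KER.hW (KER.tw U t)) x‖ ^ 2
      ≤ 1 / 2 * (1 / (1 + |t|)) * C1 + 1 / 2 * (1 + |t|) * (C2 / (1 + |t|) ^ 2) := by
        gcongr
        · exact h1 t
        · exact h2 t
    _ = _ := by field_simp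

/-- the weighted `L²` norm of the profile -/
theorem integral_sq_Phi (W : ℝ → ℂ) {K B : ℝ} (hK : 0 < K) (hB : 0 < B) :
    ∫ v in Ioi (0 : ℝ), v * ‖Phi W K B v‖ ^ 2 =
      K ^ 4 * B ^ 2 / Real.pi ^ 4 * ∫ x in Ioi (0 : ℝ), x * ‖Tf (hW W) x‖ ^ 2 := by
  have h1 := integral_comp_mul_left_Ioi (fun x : ℝ => x * ‖Tf (hW W) x‖ ^ 2) 0 (b := K / B) (by positivity)
  rw [mul_zero, smul_eq_mul] at h1
  have h2 : ∫ v in Ioi (0 : ℝ), v * ‖Phi W K B v‖ ^ 2 =
      K ^ 6 / Real.pi ^ 4 * (B / K) * ∫ v in Ioi (0 : ℝ), (K / B * v) * ‖Tf (hW W) (K / B * v)‖ ^ 2 := by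
    rw [← integral_const_mul]
    apply integral_congr_ae
    refine Eventually.of_forall fun v => ?_
    simp only [Phi, norm_mul, Complex.norm_real, Real.norm_eq_abs]
    rw [abs_of_pos (show 0 < K ^ 3 / Real.pi ^ 2 by positivity),
      show K * v / B = K / B * v by ring]
    field_simp
  rw [h2, h1]
  have := Real.pi_ne_zero
  field_simp

theorem integrable_sq_Phi (H : Nice W a b) {K B : ℝ} (hK : 0 < K) (hB : 0 < B) :
    Integrable (fun v => v * ‖Phi W K B v‖ ^ 2) := by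
  have h1 := H.hW.integrable_mul_sq_Tf.comp_mul_left' (show K / B ≠ 0 by positivity)
  refine (h1.const_mul (K ^ 6 / Real.pi ^ 4 * (B / K))).congr (Eventually.of_forall fun v => ?_)
  simp only [Phi, norm_mul, Complex.norm_real, Real.norm_eq_abs]
  rw [abs_of_pos (show 0 < K ^ 3 / Real.pi ^ 2 by positivity),
    show K * v / B = K / B * v by ring]
  field_simp

/-- `‖Phi‖² ≤ C K⁴ B²/(1+|t|)` -/
theorem Nice.sq_Phi_bound (H : Nice U a b) : ∃ C : ℝ, 0 ≤ C ∧ ∀ t K B : ℝ, 0 < K → 0 < B →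
    ∫ v in Ioi (0 : ℝ), v * ‖Phi (KER.tw U t) K B v‖ ^ 2 ≤ C * (K ^ 4 * B ^ 2) / (1 + |t|) := by
  obtain ⟨C, hC, h1⟩ := H.mulsqT_bound
  refine ⟨C / Real.pi ^ 4, by positivity, fun t K B hK hB => ?_⟩
  rw [integral_sq_Phi _ hK hB]
  calc K ^ 4 * B ^ 2 / Real.pi ^ 4 * ∫ x in Ioi (0 : ℝ), x * ‖Tf (KER.hW (KER.tw U t)) x‖ ^ 2
      ≤ K ^ 4 * B ^ 2 / Real.pi ^ 4 * (C / (1 + |t|)) := by
        have := h1 t
        gcongr
    _ = _ := by ring

end Vale.Agent.P006.KER
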