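import Mathlib
import Vale.Agent.P006.KER.Norm

/-!
Block KER-5: pointwise decay of the profile and of its derivatives, uniformly in the twist.
-/

open MeasureTheory Set Filter
open scoped Topology FourierTransform ContDiff

namespace Vale.Agent.P006.KER

variable {h U W : ℝ → ℂ} {a b : ℝ}

/-- `∫ |v|^k |f^{(p)}|` for a function supported in `[-c,c]` -/
lemma integral_pow_mul_iteratedDeriv_le {f : ℝ → ℂ} (hf : ContDiff ℝ ∞ f) {c : ℝ} (hc : 0 ≤ c)
    (h0 : ∀ v, c < |v| → f v = 0) {p : ℕ} {M : ℝ} (hM : ∀ v, ‖iteratedDeriv p f v‖ ≤ M) (k : ℕ) :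
    Integrable (fun v : ℝ => ‖v‖ ^ k * ‖iteratedFDeriv ℝ p f v‖) ∧
    ∫ v : ℝ, ‖v‖ ^ k * ‖iteratedFDeriv ℝ p f v‖ ≤ c ^ k * M * (2 * c) := by
  have hz : ∀ v, c < |v| → iteratedDeriv p f v = 0 := by
    intro v hv
    have : f =ᶠ[𝓝 v] fun _ => 0 := by
      have hopen : IsOpen {v : ℝ | c < |v|} := isOpen_lt continuous_const continuous_abs
      filter_upwards [hopen.mem_nhds hv] with w hw
      exact h0 w hw
    rw [this.iteratedDeriv_eq p]
    have e := iteratedDeriv_const (𝕜 := ℝ) (n := p) (c := (0 : ℂ)) (x := v)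
    rw [e]
    split_ifs <;> rfl
  have hcont : Continuous (fun v : ℝ => ‖v‖ ^ k * ‖iteratedDeriv p f v‖) := by
    have := hf.continuous_iteratedDeriv p (by exact_mod_cast le_top)
    fun_prop
  have hcs : HasCompactSupport (fun v : ℝ => ‖v‖ ^ k * ‖iteratedDeriv p f v‖) := by
    apply HasCompactSupport.intro (isCompact_Icc (a := -c) (b := c))
    intro x hx
    rw [hz x, norm_zero, mul_zero]
    by_contra hcon
    exact hx (abs_le.1 (not_lt.1 hcon))
  simp only [norm_iteratedFDeriv_eq_norm_iteratedDeriv]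
  refine ⟨hcont.integrable_of_hasCompactSupport hcs, ?_⟩
  have e1 : ∫ v : ℝ, ‖v‖ ^ k * ‖iteratedDeriv p f v‖ =
      ∫ v in Icc (-c) c, ‖v‖ ^ k * ‖iteratedDeriv p f v‖ := by
    symm
    apply setIntegral_eq_integral_of_forall_compl_eq_zero
    intro x hx
    rw [hz x, norm_zero, mul_zero]
    by_contra hcon
    exact hx (abs_le.1 (not_lt.1 hcon))
  rw [e1]
  have e2 := norm_setIntegral_le_of_norm_le_const (μ := volume) (s := Icc (-c) c)
    (f := fun v : ℝ => ‖v‖ ^ k * ‖iteratedDeriv p f v‖) (C := c ^ k * M)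
    (by rw [Real.volume_Icc]; exact ENNReal.ofReal_lt_top)
    (fun v hv => by
      rw [Real.norm_of_nonneg (by positivity)]
      have : ‖v‖ ≤ c := abs_le.2 hv
      have hM0 : 0 ≤ M := (norm_nonneg _).trans (hM 0)
      gcongr
      exact hM v)
  refine (Real.le_norm_self _).trans (e2.trans (le_of_eq ?_))
  rw [Real.volume_real_Icc_of_le (by linarith)]
  ring

lemma iteratedDeriv_oddf_le (H : Nice h a b) {p : ℕ} {M : ℝ} (hM : ∀ v, ‖iteratedDeriv p h v‖ ≤ M)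
    (v : ℝ) : ‖iteratedDeriv p (oddf h) v‖ ≤ 2 * M := by
  have e : oddf h = h - fun x => h (-x) := rfl
  have hn : ContDiff ℝ ∞ (fun x => h (-x)) := H.smooth.comp contDiff_neg
  rw [e, iteratedDeriv_sub (H.smooth.contDiffAt.of_le (by exact_mod_cast le_top))
    (hn.contDiffAt.of_le (by exact_mod_cast le_top)), iteratedDeriv_comp_neg]
  refine (norm_sub_le _ _).trans ?_
  rw [norm_smul]
  have : ‖(-1 : ℝ) ^ p‖ = 1 := by simp
  rw [this, one_mul]
  linarith [hM v, hM (-v)]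

/-- derivative bounds for `G` in the twist -/
theorem Nice.Gf_bounds (H : Nice U a b) (p : ℕ) : ∃ C : ℝ, 0 ≤ C ∧ ∀ t v : ℝ,
    ‖iteratedDeriv p (Gf (KER.hW (KER.tw U t))) v‖ ≤ C * (1 + |t|) ^ p / (1 + |t|) := by
  cases p with
  | zero =>
    obtain ⟨C, hC, h1⟩ := H.Gf_hW_tw_bound
    refine ⟨C, hC, fun t v => ?_⟩
    rw [iteratedDeriv_zero, pow_zero, mul_one]
    exact h1 t v
  | succ p =>
    obtain ⟨C, hC, h1⟩ := Nice.tw_bound p H.hW
    refine ⟨2 * C, by positivity, fun t v => ?_⟩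
    have Ht := (H.tw t).hW
    have ht : 0 < 1 + |t| := by positivity
    rw [iteratedDeriv_succ', Ht.deriv_Gf]
    have e : (fun τ => -oddf (KER.hW (KER.tw U t)) τ) = -oddf (KER.hW (KER.tw U t)) := rfl
    rw [e, iteratedDeriv_neg, norm_neg]
    refine (iteratedDeriv_oddf_le Ht (M := C * (1 + |t|) ^ p) (fun w => ?_) v).trans (le_of_eq ?_)
    · rw [hW_tw H t, iteratedDeriv_cmul (H.hW.tw (-t)).smooth]
      simp only
      rw [norm_mul, Complex.norm_exp_ofReal_mul_I, one_mul]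
      have := h1 (-t) w
      rwa [abs_neg] at this
    · rw [pow_succ]; field_simp

/-- decay of `T` and its derivatives -/
theorem Nice.Tf_pow_bound (H : Nice U a b) (j l : ℕ) : ∃ C : ℝ, 0 ≤ C ∧ ∀ t x : ℝ,
    |x| ^ j * ‖iteratedDeriv l (Tf (KER.hW (KER.tw U t))) x‖ ≤ C * (1 + |t|) ^ j / (1 + |t|) := by
  choose C hC h1 using H.Gf_bounds
  have ha := H.pos
  set c : ℝ := 1 / (2 * a) with hc
  have hc0 : 0 ≤ c := by positivity
  set D : ℝ := ∑ p ∈ Finset.range (l + 1) ×ˢ Finset.range (j + 1), c ^ p.1 * C p.2 * (2 * c) with hD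
  have hD0 : 0 ≤ D := Finset.sum_nonneg fun p _ => by have := hC p.2; positivity
  refine ⟨(2 * Real.pi) ^ j * (1 / 2 * (1 / (2 * Real.pi)) ^ l) *
    ((2 * Real.pi) ^ l * (2 * l + 2) ^ j * D), by positivity, fun t x => ?_⟩
  have Ht := (H.tw t).hW
  have ht : 0 < 1 + |t| := by positivity
  have ht1 : 1 ≤ 1 + |t| := by linarith [abs_nonneg t]
  have hz : ∀ v, c < |v| → Gf (KER.hW (KER.tw U t)) v = 0 := fun v hv => Ht.Gf_zero_of_lt hv
  have h2 := fun (k p : ℕ) => integral_pow_mul_iteratedDeriv_le Ht.Gf_smooth hc0 hz (h1 p t) k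
  have h3 := Real.pow_mul_norm_iteratedFDeriv_fourier_le (K := ⊤) (N := ⊤)
    (f := Gf (KER.hW (KER.tw U t))) Ht.Gf_smooth
    (fun k p _ _ => (h2 k p).1) (k := l) (n := j) (by exact_mod_cast le_top) (by exact_mod_cast le_top)
    (x / (2 * Real.pi))
  have h4 : ∑ p ∈ Finset.range (l + 1) ×ˢ Finset.range (j + 1),
      ∫ v, ‖v‖ ^ p.1 * ‖iteratedFDeriv ℝ p.2 (Gf (KER.hW (KER.tw U t))) v‖ ≤
      D * ((1 + |t|) ^ j / (1 + |t|)) := by
    rw [hD, Finset.sum_mul]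
    apply Finset.sum_le_sum
    intro p hp
    rw [Finset.mem_product, Finset.mem_range, Finset.mem_range] at hp
    refine ((h2 p.1 p.2).2).trans ?_
    have hCp := hC p.2
    calc c ^ p.1 * (C p.2 * (1 + |t|) ^ p.2 / (1 + |t|)) * (2 * c)
        = c ^ p.1 * C p.2 * (2 * c) * ((1 + |t|) ^ p.2 / (1 + |t|)) := by ring
      _ ≤ c ^ p.1 * C p.2 * (2 * c) * ((1 + |t|) ^ j / (1 + |t|)) := by
          have hp2 : p.2 ≤ j := by omega
          gcongr
  rw [norm_iteratedFDeriv_eq_norm_iteratedDeriv] at h3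
  have h5 : iteratedDeriv l (Tf (KER.hW (KER.tw U t))) x =
      (1 / 2 : ℂ) * ((1 / (2 * Real.pi)) ^ l • iteratedDeriv l (𝓕 (Gf (KER.hW (KER.tw U t)))) (x / (2 * Real.pi))) := by
    have e1 : Tf (KER.hW (KER.tw U t)) = fun x => (1 / 2 : ℂ) *
        (fun y : ℝ => 𝓕 (Gf (KER.hW (KER.tw U t))) ((1 / (2 * Real.pi)) * y)) x := by
      funext y
      unfold Tf
      simp only
      rw [show y / (2 * Real.pi) = 1 / (2 * Real.pi) * y by ring]
    have hsm : ContDiff ℝ ∞ (fun y : ℝ => 𝓕 (Gf (KER.hW (KER.tw U t))) ((1 / (2 * Real.pi)) * y)) :=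
      Ht.fourier_smooth.comp (contDiff_const.mul contDiff_id)
    rw [e1, iteratedDeriv_cmul hsm]
    simp only
    have e2 := iteratedDeriv_comp_const_smul (n := l)
      (Ht.fourier_smooth.of_le (by exact_mod_cast le_top)) (1 / (2 * Real.pi))
    rw [e2]
    simp only
    rw [show x / (2 * Real.pi) = 1 / (2 * Real.pi) * x by ring]
  rw [h5, norm_mul, norm_smul]
  have e6 : ‖(1 / 2 : ℂ)‖ = 1 / 2 := by simp
  have e7 : ‖(1 / (2 * Real.pi)) ^ l‖ = (1 / (2 * Real.pi)) ^ l := by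
    rw [Real.norm_of_nonneg (by positivity)]
  have e8 : |x| ^ j = (2 * Real.pi) ^ j * ‖x / (2 * Real.pi)‖ ^ j := by
    rw [Real.norm_eq_abs, abs_div, abs_of_pos (show (0:ℝ) < 2 * Real.pi by positivity), div_pow]
    field_simp
  rw [e6, e7, e8]
  generalize ‖iteratedDeriv l (𝓕 (Gf (KER.hW (KER.tw U t)))) (x / (2 * Real.pi))‖ = Z at h3 ⊢
  generalize ‖x / (2 * Real.pi)‖ = X at h3 ⊢
  calc (2 * Real.pi) ^ j * X ^ j * (1 / 2 * ((1 / (2 * Real.pi)) ^ l * Z))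
      = (2 * Real.pi) ^ j * (1 / 2 * (1 / (2 * Real.pi)) ^ l) * (X ^ j * Z) := by ring
    _ ≤ (2 * Real.pi) ^ j * (1 / 2 * (1 / (2 * Real.pi)) ^ l) * ((2 * Real.pi) ^ l * (2 * l + 2) ^ j *
        (D * ((1 + |t|) ^ j / (1 + |t|)))) := by
        apply mul_le_mul_of_nonneg_left _ (by positivity)
        refine h3.trans ?_
        apply mul_le_mul_of_nonneg_left h4 (by positivity)
    _ = _ := by ring

/-- **Decay of the profile** (K5). -/
theorem Nice.Tf_decay (H : Nice U a b) (j l : ℕ) : ∃ C : ℝ, 0 ≤ C ∧ ∀ t x : ℝ,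
    (1 + |x|) ^ j * ‖iteratedDeriv l (Tf (KER.hW (KER.tw U t))) x‖ ≤ C * (1 + |t|) ^ j / (1 + |t|) := by
  obtain ⟨C0, hC0, h0⟩ := H.Tf_pow_bound 0 l
  obtain ⟨C1, hC1, h1⟩ := H.Tf_pow_bound j l
  refine ⟨2 ^ j * (C0 + C1), by positivity, fun t x => ?_⟩
  have ht : 0 < 1 + |t| := by positivity
  have ht1 : 1 ≤ 1 + |t| := by linarith [abs_nonneg t]
  have e1 : (1 + |x|) ^ j ≤ 2 ^ j * (1 + |x| ^ j) := by
    rcases le_total |x| 1 with hx | hx
    · calc (1 + |x|) ^ j ≤ 2 ^ j := by gcongr; linarith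
        _ ≤ 2 ^ j * (1 + |x| ^ j) := by
          have : 0 ≤ |x| ^ j := by positivity
          have h2 : (0 : ℝ) < 2 ^ j := by positivity
          nlinarith
    · calc (1 + |x|) ^ j ≤ (2 * |x|) ^ j := by gcongr; linarith
        _ = 2 ^ j * |x| ^ j := by rw [mul_pow]
        _ ≤ 2 ^ j * (1 + |x| ^ j) := by
          have h2 : (0 : ℝ) < 2 ^ j := by positivity
          nlinarith
  have e2 := h0 t x
  have e3 := h1 t x
  rw [pow_zero, one_mul, pow_zero, mul_one] at e2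
  set Z := ‖iteratedDeriv l (Tf (KER.hW (KER.tw U t))) x‖ with hZ
  have hZ0 : 0 ≤ Z := norm_nonneg _
  have e4 : C0 / (1 + |t|) ≤ C0 * (1 + |t|) ^ j / (1 + |t|) := by
    have : 1 ≤ (1 + |t|) ^ j := one_le_pow₀ ht1
    gcongr
    nlinarith
  calc (1 + |x|) ^ j * Z ≤ 2 ^ j * (1 + |x| ^ j) * Z := by gcongr
    _ = 2 ^ j * (Z + |x| ^ j * Z) := by ring
    _ ≤ 2 ^ j * (C0 * (1 + |t|) ^ j / (1 + |t|) + C1 * (1 + |t|) ^ j / (1 + |t|)) := by
        gcongr
        exact e2.trans e4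
    _ = _ := by ring

/-- weaker form -/
theorem Nice.Tf_decay' (H : Nice U a b) (j l : ℕ) : ∃ C : ℝ, 0 ≤ C ∧ ∀ t x : ℝ,
    (1 + |x|) ^ j * ‖iteratedDeriv l (Tf (KER.hW (KER.tw U t))) x‖ ≤ C * (1 + |t|) ^ j := by
  obtain ⟨C, hC, h1⟩ := H.Tf_decay j l
  refine ⟨C, hC, fun t x => (h1 t x).trans ?_⟩
  apply div_le_self (by positivity)
  linarith [abs_nonneg t]

/-- decay of `Phi` with explicit dependence on all the parameters -/
theorem Nice.Phi_decay (H : Nice U a b) (j : ℕ) : ∃ C : ℝ, 0 ≤ C ∧ ∀ t K B v : ℝ, 0 < K → 0 < B →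
    (1 + K * |v| / B) ^ j * ‖Phi (KER.tw U t) K B v‖ ≤ C * K ^ 3 * (1 + |t|) ^ j / (1 + |t|) := by
  obtain ⟨C, hC, h1⟩ := H.Tf_decay j 0
  refine ⟨C / Real.pi ^ 2, by positivity, fun t K B v hK hB => ?_⟩
  have h2 := h1 t (K * v / B)
  rw [iteratedDeriv_zero, abs_div, abs_mul, abs_of_pos hK, abs_of_pos hB] at h2
  unfold Phi
  rw [norm_mul, Complex.norm_real, Real.norm_of_nonneg (by positivity)]
  calc (1 + K * |v| / B) ^ j * (K ^ 3 / Real.pi ^ 2 * ‖Tf (KER.hW (KER.tw U t)) (K * v / B)‖)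
      = K ^ 3 / Real.pi ^ 2 * ((1 + K * |v| / B) ^ j * ‖Tf (KER.hW (KER.tw U t)) (K * v / B)‖) := by ring
    _ ≤ K ^ 3 / Real.pi ^ 2 * (C * (1 + |t|) ^ j / (1 + |t|)) := by gcongr
    _ = _ := by ring

lemma continuous_Phi (H : Nice W a b) (K B : ℝ) : Continuous (Phi W K B) := by
  unfold Phi
  have := H.hW.Tf_cont
  fun_prop

/-- `Phi` has rapid decay (untwisted form, all parameters fixed) -/
theorem Phi_rapid (H : Nice W a b) {K B : ℝ} (hK : 0 < K) (hB : 0 < B) (j : ℕ) :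
    ∃ C : ℝ, 0 ≤ C ∧ ∀ v : ℝ, ‖Phi W K B v‖ ≤ C * (1 + |v|) ^ (-(j : ℤ)) := by
  obtain ⟨C, hC, h1⟩ := H.Phi_decay j
  have e0 : KER.tw W 0 = W := by funext s; unfold KER.tw; simp
  set m : ℝ := min 1 (K / B) with hm
  have hm0 : 0 < m := by positivity
  refine ⟨C * K ^ 3 / m ^ j, by positivity, fun v => ?_⟩
  have h2 := h1 0 K B v hK hB
  rw [e0, abs_zero, add_zero, one_pow, mul_one, div_one] at h2
  have h3 : m * (1 + |v|) ≤ 1 + K * |v| / B := by
    have e1 : m ≤ 1 := min_le_left _ _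
    have e2 : m ≤ K / B := min_le_right _ _
    have e3 : K * |v| / B = K / B * |v| := by ring
    rw [e3]
    nlinarith [abs_nonneg v, mul_le_mul_of_nonneg_right e2 (abs_nonneg v)]
  have h4 : (m * (1 + |v|)) ^ j * ‖Phi W K B v‖ ≤ C * K ^ 3 := by
    refine le_trans ?_ h2
    gcongr
  rw [zpow_neg, zpow_natCast, ← div_eq_mul_inv, le_div_iff₀ (by positivity), le_div_iff₀ (by positivity)]
  calc ‖Phi W K B v‖ * (1 + |v|) ^ j * m ^ j = (m * (1 + |v|)) ^ j * ‖Phi W K B v‖ := by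
        rw [mul_pow]; ring
    _ ≤ _ := h4

end Vale.Agent.P006.KER
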