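import Mathlib

/-!
The Gamma integral with a complex rate, and the regularised sine integral.
-/

open MeasureTheory Set Filter
open scoped Topology

namespace Vale.Agent.P006.KER

/-- `∫_0^∞ x^{a-1} e^{-rx} dx` with real exponent and complex rate -/
noncomputable def GI (a : ℝ) (r : ℂ) : ℂ := ∫ x in Ioi (0 : ℝ), ((x ^ (a - 1) : ℝ) : ℂ) * Complex.exp (-(r * x))

lemma norm_exp_neg_mul (r : ℂ) (x : ℝ) : ‖Complex.exp (-(r * x))‖ = Real.exp (-(r.re * x)) := by
  rw [Complex.norm_exp]; simp

lemma integrable_rpow_exp {a s : ℝ} (ha : 0 < a) (hs : 0 < s) :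
    IntegrableOn (fun x : ℝ => x ^ (a - 1) * Real.exp (-(s * x))) (Ioi 0) := by
  have := integrableOn_rpow_mul_exp_neg_mul_rpow (p := 1) (s := a - 1) (b := s) (by linarith) one_pos hs
  refine this.congr_fun (fun x _ => ?_) measurableSet_Ioi
  simp only [Real.rpow_one]
  ring_nf

lemma integrable_GI {a : ℝ} (ha : 0 < a) {r : ℂ} (hr : 0 < r.re) :
    IntegrableOn (fun x : ℝ => ((x ^ (a - 1) : ℝ) : ℂ) * Complex.exp (-(r * x))) (Ioi 0) := by
  refine (integrable_rpow_exp ha hr).mono' ?_ ?_
  · apply AEStronglyMeasurable.mul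
    · apply Complex.continuous_ofReal.comp_aestronglyMeasurable
      apply ContinuousOn.aestronglyMeasurable _ measurableSet_Ioi
      exact fun x hx => (Real.continuousAt_rpow_const x _ (Or.inl (ne_of_gt hx))).continuousWithinAt
    · exact (by fun_prop : Continuous fun x : ℝ => Complex.exp (-(r * x))).aestronglyMeasurable
  · filter_upwards [ae_restrict_mem measurableSet_Ioi] with x hx
    rw [norm_mul, norm_exp_neg_mul, Complex.norm_real, Real.norm_of_nonneg (Real.rpow_nonneg (le_of_lt hx) _)]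

lemma hasDerivAt_GI {a : ℝ} (ha : 0 < a) {r : ℂ} (hr : 0 < r.re) :
    HasDerivAt (GI a) (-GI (a + 1) r) r := by
  have hs : 0 < r.re / 2 := by positivity
  have key := hasDerivAt_integral_of_dominated_loc_of_deriv_le
    (μ := volume.restrict (Ioi (0:ℝ)))
    (F := fun (r : ℂ) (x : ℝ) => ((x ^ (a - 1) : ℝ) : ℂ) * Complex.exp (-(r * x)))
    (F' := fun (r : ℂ) (x : ℝ) => -(((x ^ (a + 1 - 1) : ℝ) : ℂ) * Complex.exp (-(r * x))))
    (x₀ := r) (s := Metric.ball r (r.re / 2)) (bound := fun x : ℝ => x ^ (a + 1 - 1) * Real.exp (-(r.re / 2 * x)))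
    (Metric.ball_mem_nhds r hs) ?_ ?_ ?_ ?_ ?_ ?_
  · have h2 := key.2
    rw [integral_neg] at h2
    exact h2
  · filter_upwards [Metric.ball_mem_nhds r hs] with r' hr'
    have h0 : 0 < r'.re := by
      have h1 : |(r' - r).re| ≤ ‖r' - r‖ := Complex.abs_re_le_norm _
      rw [Metric.mem_ball, Complex.dist_eq] at hr'
      have h2 := abs_le.1 (h1.trans hr'.le)
      rw [Complex.sub_re] at h2
      linarith [h2.1]
    exact (integrable_GI ha h0).aestronglyMeasurable
  · exact integrable_GI ha hr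
  · exact (integrable_GI (by linarith : 0 < a + 1) hr).aestronglyMeasurable.neg
  · filter_upwards [ae_restrict_mem measurableSet_Ioi] with x hx
    intro r' hr'
    have h0 : r.re / 2 ≤ r'.re := by
      have h1 : |(r' - r).re| ≤ ‖r' - r‖ := Complex.abs_re_le_norm _
      rw [Metric.mem_ball, Complex.dist_eq] at hr'
      have h2 := abs_le.1 (h1.trans hr'.le)
      rw [Complex.sub_re] at h2
      linarith [h2.1]
    rw [norm_neg, norm_mul, norm_exp_neg_mul, Complex.norm_real,
      Real.norm_of_nonneg (Real.rpow_nonneg (le_of_lt hx) _)]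
    have hx' : (0:ℝ) < x := hx
    gcongr
  · exact integrable_rpow_exp (by linarith) hs
  · filter_upwards [ae_restrict_mem measurableSet_Ioi] with x hx
    intro r' _
    have hx' : (0:ℝ) < x := hx
    have h1 : HasDerivAt (fun r : ℂ => Complex.exp (-(r * x))) (Complex.exp (-(r' * x)) * (-(1 * x))) r' :=
      ((hasDerivAt_id r').mul_const (x : ℂ)).neg.cexp
    have h2 := h1.const_mul ((x ^ (a - 1) : ℝ) : ℂ)
    refine h2.congr_deriv ?_
    have h3 : x ^ (a + 1 - 1) = x ^ (a - 1) * x := by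
      rw [show a + 1 - 1 = (a - 1) + 1 by ring, Real.rpow_add_one hx'.ne']
    rw [h3]
    push_cast
    ring

lemma GI_succ {a : ℝ} (ha : 0 < a) {r : ℂ} (hr : 0 < r.re) : r * GI (a + 1) r = a * GI a r := by
  have hderiv : ∀ x ∈ Ioi (0 : ℝ), HasDerivAt (fun x : ℝ => ((x ^ a : ℝ) : ℂ) * Complex.exp (-(r * x)))
      ((a : ℂ) * (((x ^ (a - 1) : ℝ) : ℂ) * Complex.exp (-(r * x))) -
        r * (((x ^ (a + 1 - 1) : ℝ) : ℂ) * Complex.exp (-(r * x)))) x := by
    intro x hx
    have hx' : (0:ℝ) < x := hx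
    have h1 : HasDerivAt (fun x : ℝ => ((x ^ a : ℝ) : ℂ)) ((a * x ^ (a - 1) : ℝ) : ℂ) x :=
      (Real.hasDerivAt_rpow_const (Or.inl hx'.ne')).ofReal_comp
    have h2 : HasDerivAt (fun x : ℝ => Complex.exp (-(r * x))) (Complex.exp (-(r * x)) * (-(r * 1))) x := by
      have h3 : HasDerivAt (fun x : ℝ => (x : ℂ)) 1 x := Complex.ofRealCLM.hasDerivAt
      exact (h3.const_mul r).neg.cexp
    refine (h1.mul h2).congr_deriv ?_
    rw [show a + 1 - 1 = a by ring]
    push_cast
    ring
  have hcont : ContinuousWithinAt (fun x : ℝ => ((x ^ a : ℝ) : ℂ) * Complex.exp (-(r * x))) (Ici 0) 0 := by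
    apply ContinuousAt.continuousWithinAt
    apply ContinuousAt.mul
    · exact Complex.continuous_ofReal.continuousAt.comp (Real.continuousAt_rpow_const 0 a (Or.inr ha.le))
    · exact (by fun_prop : Continuous fun x : ℝ => Complex.exp (-(r * x))).continuousAt
  have hint : IntegrableOn (fun x : ℝ => (a : ℂ) * (((x ^ (a - 1) : ℝ) : ℂ) * Complex.exp (-(r * x))) -
        r * (((x ^ (a + 1 - 1) : ℝ) : ℂ) * Complex.exp (-(r * x)))) (Ioi 0) :=
    ((integrable_GI ha hr).const_mul _).sub ((integrable_GI (by linarith) hr).const_mul _)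
  have htend : Tendsto (fun x : ℝ => ((x ^ a : ℝ) : ℂ) * Complex.exp (-(r * x))) atTop (𝓝 0) := by
    rw [tendsto_zero_iff_norm_tendsto_zero]
    have h1 := tendsto_rpow_mul_exp_neg_mul_atTop_nhds_zero a r.re hr
    refine h1.congr' ?_
    filter_upwards [eventually_gt_atTop 0] with x hx
    rw [norm_mul, norm_exp_neg_mul, Complex.norm_real, Real.norm_of_nonneg (Real.rpow_nonneg (le_of_lt hx) _)]
    ring_nf
  have h := integral_Ioi_of_hasDerivAt_of_tendsto hcont hderiv hint htend
  rw [integral_sub ((integrable_GI ha hr).const_mul _) ((integrable_GI (by linarith) hr).const_mul _),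
    integral_const_mul, integral_const_mul, Real.zero_rpow ha.ne'] at h
  simp only [Complex.ofReal_zero, zero_mul, sub_zero] at h
  unfold GI
  linear_combination -h

/-- `∫_0^∞ x^{a-1} e^{-rx} dx = Γ(a) r^{-a}` for `Re r > 0`. -/
theorem GI_eq {a : ℝ} (ha : 0 < a) {r : ℂ} (hr : 0 < r.re) :
    GI a r = Complex.Gamma a * r ^ (-(a : ℂ)) := by
  have hconv : Convex ℝ {z : ℂ | 0 < z.re} := convex_halfSpace_re_gt 0
  have hopen : IsOpen {z : ℂ | 0 < z.re} := isOpen_lt continuous_const Complex.continuous_re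
  have hslit : ∀ z : ℂ, 0 < z.re → z ∈ Complex.slitPlane := fun z hz => Or.inl hz
  have hd : ∀ z ∈ {z : ℂ | 0 < z.re}, HasDerivAt (fun z => z ^ (a : ℂ) * GI a z) 0 z := by
    intro z hz
    have hz0 : z ≠ 0 := by rintro rfl; simp at hz
    have h1 := (hasDerivAt_id z).cpow_const (c := (a : ℂ)) (hslit z hz)
    have h2 := h1.mul (hasDerivAt_GI ha hz)
    refine h2.congr_deriv ?_
    simp only [id]
    have h3 := GI_succ ha hz
    have h4 : z ^ (a : ℂ) = z ^ ((a : ℂ) - 1) * z := by
      rw [Complex.cpow_sub _ _ hz0, Complex.cpow_one]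
      field_simp
    rw [h4]
    linear_combination (-(z ^ ((a : ℂ) - 1))) * h3
  have hconst := hconv.is_const_of_fderivWithin_eq_zero (𝕜 := ℂ) (f := fun z => z ^ (a : ℂ) * GI a z)
    (fun z hz => (hd z hz).differentiableAt.differentiableWithinAt)
    (fun z hz => by
      rw [fderivWithin_of_isOpen hopen hz]
      have := (hd z hz).hasFDerivAt.fderiv
      rw [this]; ext; simp) (x := r) (y := 1) hr (by simp)
  simp only [Complex.one_cpow, one_mul] at hconst
  have h1 : GI a 1 = Complex.Gamma a := by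
    rw [Complex.Gamma_eq_integral (by simpa using ha), Complex.GammaIntegral]
    unfold GI
    apply setIntegral_congr_fun measurableSet_Ioi
    intro x hx
    have hx' : (0:ℝ) < x := hx
    simp only [one_mul]
    rw [Complex.ofReal_cpow hx'.le]
    push_cast
    ring
  have hr0 : r ≠ 0 := by rintro rfl; simp at hr
  rw [h1] at hconst
  rw [← hconst, Complex.cpow_neg]
  have : r ^ (a : ℂ) ≠ 0 := by simp [Complex.cpow_eq_zero_iff, hr0]
  field_simp

end Vale.Agent.P006.KER
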