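import Mathlib
import Vale.Agent.P006.KER.Kernel
import Vale.Agent.P006.KER.GammaC

/-!
Block KER-3: moments of the profile.
`∫_0^∞ x^{a-1} (x T(x)) dx = Γ(a) sin(πa/2) ∫ h(τ) τ^{-a} dτ`.
-/

open MeasureTheory Set Filter
open scoped Topology

namespace Vale.Agent.P006.KER

variable {h : ℝ → ℂ} {a₀ b₀ : ℝ}

/-- regularised sine integral -/
lemma sine_reg {a : ℝ} (ha : 0 < a) {ε : ℝ} (hε : 0 < ε) (τ : ℝ) :
    ∫ x in Ioi (0 : ℝ), ((x ^ (a - 1) * Real.exp (-(ε * x)) : ℝ) : ℂ) * (Real.sin (x * τ) : ℂ) =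
      (GI a (ε - τ * Complex.I) - GI a (ε + τ * Complex.I)) / (2 * Complex.I) := by
  have h1 : 0 < ((ε : ℂ) - τ * Complex.I).re := by simp [hε]
  have h2 : 0 < ((ε : ℂ) + τ * Complex.I).re := by simp [hε]
  unfold GI
  rw [← integral_sub (integrable_GI ha h1) (integrable_GI ha h2), ← integral_div]
  apply integral_congr_ae
  refine Eventually.of_forall fun x => ?_
  simp only
  rw [Complex.ofReal_sin, Complex.sin]
  have e1 : Complex.exp (-(((ε : ℂ) - τ * Complex.I) * x)) =
      Complex.exp (-(ε * x)) * Complex.exp (((x * τ : ℝ) : ℂ) * Complex.I) := by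
    rw [← Complex.exp_add]; congr 1; push_cast; ring
  have e2 : Complex.exp (-(((ε : ℂ) + τ * Complex.I) * x)) =
      Complex.exp (-(ε * x)) * Complex.exp (-((x * τ : ℝ) : ℂ) * Complex.I) := by
    rw [← Complex.exp_add]; congr 1; push_cast; ring
  rw [e1, e2]
  have hII : Complex.I * Complex.I = -1 := Complex.I_mul_I
  have hI : (2 * Complex.I) ≠ 0 := by simp
  rw [eq_div_iff hI]
  push_cast
  generalize Complex.exp (-(↑ε * ↑x)) = A
  generalize Complex.exp (↑x * ↑τ * Complex.I) = B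
  generalize Complex.exp (-(↑x * ↑τ) * Complex.I) = C
  linear_combination (((x ^ (a - 1) : ℝ) : ℂ) * A * (C - B)) * hII

/-- limit of the regularised sine integral -/
lemma sine_reg_tendsto {a : ℝ} (ha : 0 < a) {τ : ℝ} (hτ : 0 < τ) :
    Tendsto (fun ε : ℝ => (GI a (ε - τ * Complex.I) - GI a (ε + τ * Complex.I)) / (2 * Complex.I))
      (𝓝[>] 0) (𝓝 (((Real.Gamma a * Real.sin (Real.pi * a / 2) * τ ^ (-a) : ℝ)) : ℂ)) := by
  have h1 : Tendsto (fun ε : ℝ => Complex.Gamma a * ((ε : ℂ) - τ * Complex.I) ^ (-(a : ℂ)))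
      (𝓝[>] 0) (𝓝 (Complex.Gamma a * (((0 : ℝ) : ℂ) - τ * Complex.I) ^ (-(a : ℂ)))) := by
    apply Tendsto.mono_left _ nhdsWithin_le_nhds
    apply Tendsto.const_mul
    have hc : ContinuousAt (fun z : ℂ => z ^ (-(a : ℂ))) (((0 : ℝ) : ℂ) - τ * Complex.I) := by
      apply continuousAt_cpow_const
      right
      simp [hτ.ne']
    exact hc.tendsto.comp ((by fun_prop : Continuous fun ε : ℝ => (ε : ℂ) - τ * Complex.I).tendsto 0)
  have h2 : Tendsto (fun ε : ℝ => Complex.Gamma a * ((ε : ℂ) + τ * Complex.I) ^ (-(a : ℂ)))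
      (𝓝[>] 0) (𝓝 (Complex.Gamma a * (((0 : ℝ) : ℂ) + τ * Complex.I) ^ (-(a : ℂ)))) := by
    apply Tendsto.mono_left _ nhdsWithin_le_nhds
    apply Tendsto.const_mul
    have hc : ContinuousAt (fun z : ℂ => z ^ (-(a : ℂ))) (((0 : ℝ) : ℂ) + τ * Complex.I) := by
      apply continuousAt_cpow_const
      right
      simp [hτ.ne']
    exact hc.tendsto.comp ((by fun_prop : Continuous fun ε : ℝ => (ε : ℂ) + τ * Complex.I).tendsto 0)
  have h3 := (h1.sub h2).div_const (2 * Complex.I)
  have h4 : (Complex.Gamma a * (((0 : ℝ) : ℂ) - τ * Complex.I) ^ (-(a : ℂ)) -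
      Complex.Gamma a * (((0 : ℝ) : ℂ) + τ * Complex.I) ^ (-(a : ℂ))) / (2 * Complex.I) =
      (((Real.Gamma a * Real.sin (Real.pi * a / 2) * τ ^ (-a) : ℝ)) : ℂ) := by
    have hI : (2 * Complex.I) ≠ 0 := by simp
    rw [div_eq_iff hI]
    have e1 : (((0 : ℝ) : ℂ) - τ * Complex.I) = (τ : ℂ) * (-Complex.I) := by simp
    have e2 : (((0 : ℝ) : ℂ) + τ * Complex.I) = (τ : ℂ) * Complex.I := by simp
    have hτc : (τ : ℂ) ≠ 0 := by exact_mod_cast hτ.ne'
    have f1 : ((τ : ℂ) * (-Complex.I)) ^ (-(a : ℂ)) =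
        ((τ ^ (-a) : ℝ) : ℂ) * Complex.exp (((Real.pi * a / 2 : ℝ) : ℂ) * Complex.I) := by
      rw [Complex.cpow_def_of_ne_zero (by simp [hτ.ne']),
        Complex.log_ofReal_mul hτ (by simp), Complex.log_neg_I,
        Real.rpow_def_of_pos hτ, Complex.ofReal_exp, ← Complex.exp_add]
      congr 1
      push_cast
      ring
    have f2 : ((τ : ℂ) * Complex.I) ^ (-(a : ℂ)) =
        ((τ ^ (-a) : ℝ) : ℂ) * Complex.exp (-((Real.pi * a / 2 : ℝ) : ℂ) * Complex.I) := by
      rw [Complex.cpow_def_of_ne_zero (by simp [hτ.ne']),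
        Complex.log_ofReal_mul hτ (by simp), Complex.log_I,
        Real.rpow_def_of_pos hτ, Complex.ofReal_exp, ← Complex.exp_add]
      congr 1
      push_cast
      ring
    rw [e1, e2, f1, f2, Complex.ofReal_mul, Complex.ofReal_mul, Complex.ofReal_sin, Complex.sin,
      Complex.Gamma_ofReal]
    have hII : Complex.I * Complex.I = -1 := Complex.I_mul_I
    generalize Complex.exp (((Real.pi * a / 2 : ℝ) : ℂ) * Complex.I) = A
    generalize Complex.exp (-((Real.pi * a / 2 : ℝ) : ℂ) * Complex.I) = B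
    linear_combination ((Real.Gamma a : ℂ) * ((τ ^ (-a) : ℝ) : ℂ) * (A - B)) * hII
  rw [← h4]
  refine h3.congr' ?_
  filter_upwards [self_mem_nhdsWithin] with ε hε
  have hε' : (0:ℝ) < ε := hε
  rw [GI_eq ha (by simp [hε']), GI_eq ha (by simp [hε'])]

lemma norm_sine_reg_le {a : ℝ} (ha : 0 < a) {τ ε : ℝ} (hτ : 0 < τ) (hε : 0 < ε) :
    ‖(GI a (ε - τ * Complex.I) - GI a (ε + τ * Complex.I)) / (2 * Complex.I)‖ ≤
      ‖Complex.Gamma a‖ * τ ^ (-a) := by
  have h1 : ‖((ε : ℂ) - τ * Complex.I) ^ (-(a : ℂ))‖ ≤ τ ^ (-a) := by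
    rw [show (-(a : ℂ)) = ((-a : ℝ) : ℂ) by push_cast; ring, Complex.norm_cpow_real]
    apply Real.rpow_le_rpow_of_nonpos hτ _ (by linarith)
    have := Complex.abs_im_le_norm ((ε : ℂ) - τ * Complex.I)
    simpa [abs_of_pos hτ] using this
  have h2 : ‖((ε : ℂ) + τ * Complex.I) ^ (-(a : ℂ))‖ ≤ τ ^ (-a) := by
    rw [show (-(a : ℂ)) = ((-a : ℝ) : ℂ) by push_cast; ring, Complex.norm_cpow_real]
    apply Real.rpow_le_rpow_of_nonpos hτ _ (by linarith)
    have := Complex.abs_im_le_norm ((ε : ℂ) + τ * Complex.I)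
    simpa [abs_of_pos hτ] using this
  rw [GI_eq ha (by simp [hε]), GI_eq ha (by simp [hε]), norm_div, norm_mul, Complex.norm_I,
    Complex.norm_ofNat, mul_one, div_le_iff₀ two_pos, ← mul_sub, norm_mul]
  have h3 := norm_sub_le (((ε : ℂ) - τ * Complex.I) ^ (-(a : ℂ))) (((ε : ℂ) + τ * Complex.I) ^ (-(a : ℂ)))
  have h4 := norm_nonneg (Complex.Gamma a)
  nlinarith

/-- **moment formula** -/
theorem Nice.moment (H : Nice h a₀ b₀) {a : ℝ} (ha : 0 < a) :
    ∫ x in Ioi (0 : ℝ), ((x ^ (a - 1) : ℝ) : ℂ) * ((x : ℂ) * Tf h x) =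
      ((Real.Gamma a * Real.sin (Real.pi * a / 2) : ℝ) : ℂ) * ∫ τ in Ioi (0 : ℝ), h τ * ((τ ^ (-a) : ℝ) : ℂ) := by
  -- domination
  have hInt : IntegrableOn (fun x : ℝ => x ^ a * ‖Tf h x‖) (Ioi 0) := by
    obtain ⟨n, hn⟩ := exists_nat_ge a
    have h1 := (H.integrable_pow_Tf 0).add (H.integrable_pow_Tf n)
    refine h1.integrableOn.mono' ?_ ?_
    · apply AEStronglyMeasurable.mul
      · exact (Real.continuous_rpow_const ha.le).aestronglyMeasurable
      · exact H.Tf_cont.norm.aestronglyMeasurable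
    · filter_upwards [ae_restrict_mem measurableSet_Ioi] with x hx
      have hx' : (0:ℝ) < x := hx
      rw [norm_mul, norm_norm, Real.norm_of_nonneg (Real.rpow_nonneg hx'.le _)]
      simp only [Pi.add_apply, pow_zero, one_mul, abs_of_pos hx']
      rw [← one_add_mul]
      gcongr
      rcases le_total x 1 with h2 | h2
      · have := Real.rpow_le_one hx'.le h2 ha.le
        have h3 : 0 ≤ x ^ n := by positivity
        linarith
      · have := Real.rpow_le_rpow_of_exponent_le h2 hn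
        rw [Real.rpow_natCast] at this
        linarith
  have hlim1 : Tendsto (fun ε : ℝ => ∫ x in Ioi (0 : ℝ), ((x ^ (a - 1) * Real.exp (-(ε * x)) : ℝ) : ℂ) *
      ((x : ℂ) * Tf h x)) (𝓝[>] 0) (𝓝 (∫ x in Ioi (0 : ℝ), ((x ^ (a - 1) : ℝ) : ℂ) * ((x : ℂ) * Tf h x))) := by
    apply tendsto_integral_filter_of_dominated_convergence (fun x : ℝ => x ^ a * ‖Tf h x‖)
    · refine Eventually.of_forall fun ε => ?_
      apply AEStronglyMeasurable.mul
      · apply Complex.continuous_ofReal.comp_aestronglyMeasurable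
        apply ContinuousOn.aestronglyMeasurable _ measurableSet_Ioi
        apply ContinuousOn.mul
        · exact fun x hx => (Real.continuousAt_rpow_const x _ (Or.inl (ne_of_gt hx))).continuousWithinAt
        · fun_prop
      · have := H.Tf_cont
        exact (by fun_prop : Continuous fun x : ℝ => (x : ℂ) * Tf h x).aestronglyMeasurable
    · filter_upwards [self_mem_nhdsWithin] with ε hε
      filter_upwards [ae_restrict_mem measurableSet_Ioi] with x hx
      have hx' : (0:ℝ) < x := hx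
      have hε' : (0:ℝ) < ε := hε
      rw [norm_mul, norm_mul, Complex.norm_real, Complex.norm_real, Real.norm_of_nonneg (by positivity),
        Real.norm_of_nonneg hx'.le]
      have h1 : Real.exp (-(ε * x)) ≤ 1 := by
        rw [Real.exp_le_one_iff]; nlinarith
      have h2 : x ^ a = x ^ (a - 1) * x := by
        rw [← Real.rpow_add_one hx'.ne']; congr 1; ring
      rw [h2]
      have h3 : 0 ≤ x ^ (a - 1) := Real.rpow_nonneg hx'.le _
      have h4 : 0 ≤ ‖Tf h x‖ := norm_nonneg _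
      calc x ^ (a - 1) * Real.exp (-(ε * x)) * (x * ‖Tf h x‖)
          ≤ x ^ (a - 1) * 1 * (x * ‖Tf h x‖) := by gcongr
        _ = x ^ (a - 1) * x * ‖Tf h x‖ := by ring
    · exact hInt
    · filter_upwards with x
      apply Tendsto.mul_const
      have h1 : Tendsto (fun ε : ℝ => x ^ (a - 1) * Real.exp (-(ε * x))) (𝓝[>] 0) (𝓝 (x ^ (a - 1))) := by
        have h2 : Tendsto (fun ε : ℝ => x ^ (a - 1) * Real.exp (-(ε * x))) (𝓝 0)
            (𝓝 (x ^ (a - 1) * Real.exp (-(0 * x)))) :=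
          (by fun_prop : Continuous fun ε : ℝ => x ^ (a - 1) * Real.exp (-(ε * x))).tendsto 0
        simp only [zero_mul, neg_zero, Real.exp_zero, mul_one] at h2
        exact h2.mono_left nhdsWithin_le_nhds
      exact (Complex.continuous_ofReal.tendsto _).comp h1
  -- Fubini
  have hfub : ∀ ε : ℝ, 0 < ε → ∫ x in Ioi (0 : ℝ), ((x ^ (a - 1) * Real.exp (-(ε * x)) : ℝ) : ℂ) *
      ((x : ℂ) * Tf h x) = ∫ τ in Ioi (0 : ℝ), h τ *
        ((GI a (ε - τ * Complex.I) - GI a (ε + τ * Complex.I)) / (2 * Complex.I)) := by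
    intro ε hε
    have e1 : ∀ x : ℝ, (x : ℂ) * Tf h x = ∫ τ in Ioi (0 : ℝ), h τ * (Real.sin (x * τ) : ℂ) := by
      intro x
      rw [H.mul_Tf x]
      symm
      apply setIntegral_eq_integral_of_forall_compl_eq_zero
      intro τ hτ
      rw [H.eq_zero_of_nonpos (not_lt.1 hτ), zero_mul]
    have e2 : ∫ x in Ioi (0 : ℝ), ((x ^ (a - 1) * Real.exp (-(ε * x)) : ℝ) : ℂ) * ((x : ℂ) * Tf h x) =
        ∫ x in Ioi (0 : ℝ), ∫ τ in Ioi (0 : ℝ),
          ((x ^ (a - 1) * Real.exp (-(ε * x)) : ℝ) : ℂ) * (h τ * (Real.sin (x * τ) : ℂ)) := by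
      apply integral_congr_ae
      refine Eventually.of_forall fun x => ?_
      simp only
      rw [e1, integral_const_mul]
    rw [e2, integral_integral_swap]
    · apply integral_congr_ae
      refine Eventually.of_forall fun τ => ?_
      simp only
      rw [← sine_reg ha hε, ← integral_const_mul]
      apply integral_congr_ae
      refine Eventually.of_forall fun x => ?_
      simp only
      ring
    · have hP : Integrable (fun p : ℝ × ℝ => ((p.1 ^ (a - 1) * Real.exp (-(ε * p.1)) : ℝ) : ℂ) * h p.2)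
          ((volume.restrict (Ioi (0:ℝ))).prod (volume.restrict (Ioi (0:ℝ)))) := by
        apply Integrable.mul_prod (f := fun x : ℝ => ((x ^ (a - 1) * Real.exp (-(ε * x)) : ℝ) : ℂ)) (g := h)
        · exact (integrable_rpow_exp ha hε).ofReal
        · exact H.integrable.integrableOn
      have hS : Continuous fun p : ℝ × ℝ => (Real.sin (p.1 * p.2) : ℂ) := by fun_prop
      have h2 := hP.bdd_mul (c := 1) hS.aestronglyMeasurable (Eventually.of_forall fun p => by
        rw [Complex.norm_real]; exact Real.abs_sin_le_one _)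
      refine h2.congr (Eventually.of_forall fun p => ?_)
      simp only [Function.uncurry]
      ring
  have hlim2 : Tendsto (fun ε : ℝ => ∫ τ in Ioi (0 : ℝ), h τ *
        ((GI a (ε - τ * Complex.I) - GI a (ε + τ * Complex.I)) / (2 * Complex.I))) (𝓝[>] 0)
        (𝓝 (∫ τ in Ioi (0 : ℝ), h τ *
          (((Real.Gamma a * Real.sin (Real.pi * a / 2) * τ ^ (-a) : ℝ)) : ℂ))) := by
    apply tendsto_integral_filter_of_dominated_convergence
      (fun τ : ℝ => ‖h τ‖ * (‖Complex.Gamma a‖ * a₀ ^ (-a)))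
    · filter_upwards [self_mem_nhdsWithin] with ε hε
      have hε' : (0:ℝ) < ε := hε
      apply AEStronglyMeasurable.mul H.cont.aestronglyMeasurable
      have hc : Continuous fun τ : ℝ => Complex.Gamma a * ((ε : ℂ) - τ * Complex.I) ^ (-(a : ℂ)) -
          Complex.Gamma a * ((ε : ℂ) + τ * Complex.I) ^ (-(a : ℂ)) := by
        apply Continuous.sub
        · apply continuous_const.mul
          apply Continuous.cpow (by fun_prop) continuous_const
          intro τ; left; simp [hε']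
        · apply continuous_const.mul
          apply Continuous.cpow (by fun_prop) continuous_const
          intro τ; left; simp [hε']
      have hc' : Continuous fun τ : ℝ => GI a (ε - τ * Complex.I) - GI a (ε + τ * Complex.I) := by
        convert hc using 2 with τ
        rw [GI_eq ha (by simp [hε']), GI_eq ha (by simp [hε'])]
      exact (hc'.div_const _).aestronglyMeasurable
    · filter_upwards [self_mem_nhdsWithin] with ε hε
      filter_upwards [ae_restrict_mem measurableSet_Ioi] with τ hτ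
      have hτ' : (0:ℝ) < τ := hτ
      have hε' : (0:ℝ) < ε := hε
      rw [norm_mul]
      by_cases h0 : h τ = 0
      · rw [h0]; simp
      · have h1 : a₀ ≤ τ := by
          by_contra hcon
          exact h0 (H.eq_zero_of_le (not_le.1 hcon))
        have h2 : τ ^ (-a) ≤ a₀ ^ (-a) := Real.rpow_le_rpow_of_nonpos H.pos h1 (by linarith)
        exact mul_le_mul_of_nonneg_left ((norm_sine_reg_le ha hτ' hε').trans
          (mul_le_mul_of_nonneg_left h2 (norm_nonneg _))) (norm_nonneg _)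
    · exact (H.integrable.norm.mul_const _).integrableOn
    · filter_upwards [ae_restrict_mem measurableSet_Ioi] with τ hτ
      exact (sine_reg_tendsto ha hτ).const_mul _
  have hlim3 := hlim2.congr' (f₂ := fun ε : ℝ => ∫ x in Ioi (0 : ℝ), ((x ^ (a - 1) * Real.exp (-(ε * x)) : ℝ) : ℂ) *
      ((x : ℂ) * Tf h x)) (by
    filter_upwards [self_mem_nhdsWithin] with ε hε
    exact (hfub ε hε).symm)
  rw [tendsto_nhds_unique hlim1 hlim3, ← integral_const_mul]
  apply integral_congr_ae
  refine Eventually.of_forall fun τ => ?_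
  simp only
  push_cast
  ring

end Vale.Agent.P006.KER
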