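import Mathlib
import Vale.Agent.P006.KER.Mom

/-!
Block KER-3: the linear functionals of the profile `Phi`.
-/

open MeasureTheory Set Filter
open scoped Topology FourierTransform

namespace Vale.Agent.P006.KER

variable {h W : ℝ → ℂ} {a b : ℝ}

/-- change of variables `τ = 1/(2s)` -/
lemma integral_hW (W F : ℝ → ℂ) :
    ∫ τ in Ioi (0 : ℝ), hW W τ * F τ = ∫ s in Ioi (0 : ℝ), W s * F (1 / (2 * s)) := by
  have h1 := integral_comp_rpow_Ioi (fun s : ℝ => (1 / 2 : ℂ) * (W (s / 2) * F (1 / s))) (p := -1) (by norm_num)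
  have h2 := integral_comp_mul_left_Ioi (fun s : ℝ => W s * F (1 / (2 * s))) 0 (b := 1 / 2) (by norm_num)
  rw [mul_zero] at h2
  have h3 : ∫ s in Ioi (0 : ℝ), W s * F (1 / (2 * s)) =
      ∫ s in Ioi (0 : ℝ), (1 / 2 : ℂ) * (W (s / 2) * F (1 / s)) := by
    rw [integral_const_mul]
    have h4 : ∫ s in Ioi (0 : ℝ), W (s / 2) * F (1 / s) =
        ∫ x in Ioi (0 : ℝ), W (1 / 2 * x) * F (1 / (2 * (1 / 2 * x))) := by
      apply integral_congr_ae
      refine Eventually.of_forall fun x => ?_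
      simp only
      rw [show (1 / 2 * x) = x / 2 by ring, show 2 * (x / 2) = x by ring]
    rw [h4, h2, Complex.real_smul]
    push_cast
    ring
  rw [h3, ← h1]
  apply setIntegral_congr_fun measurableSet_Ioi
  intro x hx
  have hx' : (0 : ℝ) < x := hx
  simp only [Complex.real_smul]
  rw [Real.rpow_neg_one, show ((-1 : ℝ) - 1) = ((-2 : ℤ) : ℝ) by norm_num, Real.rpow_intCast]
  unfold hW
  have hxc : (x : ℂ) ≠ 0 := by exact_mod_cast hx'.ne'
  rw [show x⁻¹ / 2 = 1 / (2 * x) by field_simp, show 1 / x⁻¹ = x by field_simp]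
  have hz : x ^ (-2 : ℤ) = 1 / x ^ 2 := by
    rw [zpow_neg]; norm_cast; rw [one_div]
  rw [hz]
  push_cast
  rw [show |(-1 : ℝ)| = 1 by norm_num]
  push_cast
  field_simp

/-- `∫_0^∞ T = (π/2) ∫_0^∞ h` -/
theorem Nice.integral_Tf (H : Nice h a b) :
    ∫ x in Ioi (0 : ℝ), Tf h x = (Real.pi / 2 : ℂ) * ∫ t in Ioi (0 : ℝ), h t := by
  have hint : Integrable (𝓕 (Gf h)) := by
    rw [H.fourier_Gf]; exact SchwartzMap.integrable _
  have hinv := congrFun (H.Gf_smooth.continuous.fourierInv_fourier_eq H.Gf_integrable hint) 0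
  rw [Real.fourierInv_eq'] at hinv
  simp only [inner_zero_right, mul_zero, Complex.ofReal_zero, zero_mul, Complex.exp_zero, one_smul] at hinv
  have h0 : Gf h 0 = ∫ t in Ioi (0 : ℝ), h t := by rw [H.Gf_eq le_rfl]
  rw [h0] at hinv
  have h1 : ∫ x : ℝ, Tf h x = (Real.pi : ℂ) * ∫ t in Ioi (0 : ℝ), h t := by
    unfold Tf
    rw [integral_const_mul]
    have h2 := Measure.integral_comp_div (fun x => 𝓕 (Gf h) x) (2 * Real.pi)
    rw [h2, hinv, abs_of_pos (by positivity), Complex.real_smul]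
    push_cast
    ring
  have h3 : ∫ x : ℝ, Tf h x = 2 * ∫ x in Ioi (0 : ℝ), Tf h x := by
    rw [← integral_add_compl (measurableSet_Ioi (a := (0 : ℝ))) H.integrable_Tf, compl_Ioi]
    have h4 := integral_comp_neg_Ioi (0 : ℝ) (fun x => Tf h x)
    rw [neg_zero] at h4
    simp only [Tf_neg] at h4
    rw [← h4]
    ring
  rw [h3] at h1
  linear_combination h1 / 2

/-- `∫_0^∞ Phi = K² B / (2π) ∫ W`. -/
theorem integral_Phi (H : Nice W a b) {K B : ℝ} (hK : 0 < K) (hB : 0 < B) :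
    ∫ v in Ioi (0 : ℝ), Phi W K B v = ((K ^ 2 * B / (2 * Real.pi) : ℝ) : ℂ) * ∫ s in Ioi (0 : ℝ), W s := by
  unfold Phi
  rw [integral_const_mul]
  have h1 := integral_comp_mul_left_Ioi (fun x : ℝ => Tf (hW W) x) 0 (b := K / B) (by positivity)
  rw [mul_zero] at h1
  have h2 : ∫ v in Ioi (0 : ℝ), Tf (hW W) (K * v / B) = ∫ v in Ioi (0 : ℝ), Tf (hW W) (K / B * v) := by
    apply integral_congr_ae
    refine Eventually.of_forall fun v => ?_
    simp only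
    rw [show K * v / B = K / B * v by ring]
  have h3 := integral_hW W (fun _ => 1)
  simp only [mul_one] at h3
  rw [h2, h1, H.hW.integral_Tf, h3, Complex.real_smul]
  have e2 : (K : ℂ) ≠ 0 := by exact_mod_cast hK.ne'
  have e3 : (B : ℂ) ≠ 0 := by exact_mod_cast hB.ne'
  have e6 : (Real.pi : ℂ) ≠ 0 := by exact_mod_cast Real.pi_ne_zero
  push_cast
  field_simp

/-- the functional `l(f) = ∫_0^∞ f(v) v^{1/3} dv` of the profile -/
theorem lfun_Phi (H : Nice W a b) {K B : ℝ} (hK : 0 < K) (hB : 0 < B) :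
    ∫ v in Ioi (0 : ℝ), Phi W K B v * ((v ^ (1 / 3 : ℝ) : ℝ) : ℂ) =
      ((K ^ 3 / Real.pi ^ 2 * (B / K) ^ (4 / 3 : ℝ) * (Real.Gamma (1 / 3) / 2) : ℝ) : ℂ) *
        ∫ s in Ioi (0 : ℝ), W s * (((2 * s) ^ (1 / 3 : ℝ) : ℝ) : ℂ) := by
  have hKB : 0 < K / B := by positivity
  have h1 := integral_comp_mul_left_Ioi (fun x : ℝ => ((x ^ ((1:ℝ) / 3 - 1) : ℝ) : ℂ) *
    ((x : ℂ) * Tf (hW W) x)) 0 (b := K / B) hKB
  rw [mul_zero, H.hW.moment (by norm_num : (0:ℝ) < 1 / 3), integral_hW W] at h1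
  have h2 : ∫ v in Ioi (0 : ℝ), Phi W K B v * ((v ^ (1 / 3 : ℝ) : ℝ) : ℂ) =
      ((K ^ 3 / Real.pi ^ 2 * (B / K) ^ (1 / 3 : ℝ) : ℝ) : ℂ) *
      ∫ v in Ioi (0 : ℝ), (((K / B * v) ^ ((1:ℝ) / 3 - 1) : ℝ) : ℂ) *
    (((K / B * v : ℝ) : ℂ) * Tf (hW W) (K / B * v)) := by
    rw [← integral_const_mul]
    apply setIntegral_congr_fun measurableSet_Ioi
    intro v hv
    have hv' : (0 : ℝ) < v := hv
    have hkv : 0 < K / B * v := by positivity
    simp only [Phi]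
    have e1 : (K / B * v) ^ ((1:ℝ) / 3 - 1) * (K / B * v) = (K / B) ^ (1 / 3 : ℝ) * v ^ (1 / 3 : ℝ) := by
      rw [← Real.rpow_add_one hkv.ne', ← Real.mul_rpow hKB.le hv'.le]
      congr 1; ring
    have e2 : (B / K) ^ (1 / 3 : ℝ) * (K / B) ^ (1 / 3 : ℝ) = 1 := by
      rw [← Real.mul_rpow (by positivity) (by positivity)]
      have : B / K * (K / B) = 1 := by field_simp
      rw [this, Real.one_rpow]
    rw [show K * v / B = K / B * v by ring]
    have e3 : ((K ^ 3 / Real.pi ^ 2 : ℝ) : ℂ) * ((v ^ (1 / 3 : ℝ) : ℝ) : ℂ) =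
        ((K ^ 3 / Real.pi ^ 2 * (B / K) ^ (1 / 3 : ℝ) : ℝ) : ℂ) *
        ((((K / B * v) ^ ((1:ℝ) / 3 - 1) : ℝ) : ℂ) * ((K / B * v : ℝ) : ℂ)) := by
      rw [← Complex.ofReal_mul, ← Complex.ofReal_mul, ← Complex.ofReal_mul, e1]
      congr 1
      linear_combination (-(K ^ 3 / Real.pi ^ 2 * v ^ (1 / 3 : ℝ))) * e2
    linear_combination (Tf (hW W) (K / B * v)) * e3
  rw [h2, h1]
  have h3 : ∫ s in Ioi (0 : ℝ), W s * ((((1 / (2 * s)) ^ (-(1 / 3 : ℝ)) : ℝ)) : ℂ) =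
      ∫ s in Ioi (0 : ℝ), W s * (((2 * s) ^ (1 / 3 : ℝ) : ℝ) : ℂ) := by
    apply setIntegral_congr_fun measurableSet_Ioi
    intro s hs
    have hs' : (0 : ℝ) < s := hs
    simp only
    rw [Real.rpow_neg (by positivity), one_div, Real.inv_rpow (by positivity), inv_inv]
  rw [h3, Complex.real_smul, ← mul_assoc, ← mul_assoc, ← Complex.ofReal_mul, ← Complex.ofReal_mul]
  congr 2
  have e4 : Real.sin (Real.pi * (1 / 3) / 2) = 1 / 2 := by
    rw [show Real.pi * (1 / 3) / 2 = Real.pi / 6 by ring, Real.sin_pi_div_six]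
  have e5 : (B / K) ^ (4 / 3 : ℝ) = (B / K) ^ (1 / 3 : ℝ) * (K / B)⁻¹ := by
    rw [inv_div, ← Real.rpow_add_one (by positivity)]
    norm_num
  rw [e4, e5]
  ring

end Vale.Agent.P006.KER
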