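import Mathlib
import Vale.Agent.P006.KER.Twist

/-!
Block KER-7: Sobolev inequality in the scale.
-/

open MeasureTheory Set Filter
open scoped Topology ContDiff

namespace Vale.Agent.P006.KER

variable {U : ℝ → ℂ} {a b : ℝ}

/-- Cauchy–Schwarz on an interval -/
lemma sq_intervalIntegral_le {f : ℝ → ℝ} {x y : ℝ} (hxy : x ≤ y) (hf : ContinuousOn f (Icc x y)) :
    (∫ s in x..y, f s) ^ 2 ≤ (y - x) * ∫ s in x..y, f s ^ 2 := by
  rcases eq_or_lt_of_le hxy with rfl | hlt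
  · simp
  have hu : uIcc x y = Icc x y := uIcc_of_le hxy
  have h1 : IntervalIntegrable f volume x y := by
    apply ContinuousOn.intervalIntegrable; rwa [hu]
  have h2 : IntervalIntegrable (fun s => f s ^ 2) volume x y := by
    apply ContinuousOn.intervalIntegrable; rw [hu]; exact hf.pow 2
  set I := ∫ s in x..y, f s with hI
  set c : ℝ := I / (y - x) with hc
  have hd : 0 < y - x := by linarith
  have h3 : 0 ≤ ∫ s in x..y, (f s - c) ^ 2 :=
    intervalIntegral.integral_nonneg hxy fun s _ => sq_nonneg _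
  have h4 : ∫ s in x..y, (f s - c) ^ 2 = (∫ s in x..y, f s ^ 2) - 2 * c * I + c ^ 2 * (y - x) := by
    have e : (fun s => (f s - c) ^ 2) = fun s => (f s ^ 2 - 2 * c * f s) + c ^ 2 := by
      funext s; ring
    rw [e, intervalIntegral.integral_add (h2.sub (h1.const_mul _)) intervalIntegrable_const,
      intervalIntegral.integral_sub h2 (h1.const_mul _), intervalIntegral.integral_const_mul,
      intervalIntegral.integral_const, smul_eq_mul]
    ring
  rw [h4] at h3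
  have e5 : c * (y - x) = I := by rw [hc]; field_simp
  have h6 : I ^ 2 = (y - x) * (2 * c * I - c ^ 2 * (y - x)) := by
    rw [← e5]; ring
  rw [h6]
  apply mul_le_mul_of_nonneg_left _ hd.le
  linarith

/-- one function: value at any point of `[Y, cY]` -/
lemma sq_norm_le_scale {A A' : ℝ → ℂ} {Y c : ℝ} (hY : 0 < Y) (hc : 1 ≤ c)
    (hA : ∀ s ∈ Icc Y (c * Y), HasDerivAt A (A' s) s) (hA' : ContinuousOn A' (Icc Y (c * Y)))
    {y : ℝ} (hy : y ∈ Icc Y (c * Y)) :
    ‖A y‖ ^ 2 ≤ 2 * ‖A Y‖ ^ 2 + 2 * (c - 1) / Y * ∫ s in Y..(c * Y), ‖(s : ℂ) * A' s‖ ^ 2 := by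
  have hsub : Icc Y y ⊆ Icc Y (c * Y) := Icc_subset_Icc_right hy.2
  have h0 : A y - A Y = ∫ s in Y..y, A' s := by
    symm
    apply intervalIntegral.integral_eq_sub_of_hasDerivAt
    · intro s hs
      rw [uIcc_of_le hy.1] at hs
      exact hA s (hsub hs)
    · apply ContinuousOn.intervalIntegrable
      rw [uIcc_of_le hy.1]
      exact hA'.mono hsub
  have h1 : ‖A y - A Y‖ ≤ ∫ s in Y..y, ‖A' s‖ := by
    rw [h0]; exact intervalIntegral.norm_integral_le_integral_norm hy.1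
  have h2 : ‖A y - A Y‖ ^ 2 ≤ (y - Y) * ∫ s in Y..y, ‖A' s‖ ^ 2 :=
    (pow_le_pow_left₀ (norm_nonneg _) h1 2).trans
      (sq_intervalIntegral_le hy.1 (hA'.mono hsub).norm)
  have hYc : Y ≤ c * Y := by nlinarith
  have h3 : ∫ s in Y..y, ‖A' s‖ ^ 2 ≤ 1 / Y ^ 2 * ∫ s in Y..(c * Y), ‖(s : ℂ) * A' s‖ ^ 2 := by
    have hg : ContinuousOn (fun s : ℝ => ‖(s : ℂ) * A' s‖ ^ 2) (Icc Y (c * Y)) := by
      apply ContinuousOn.pow
      apply ContinuousOn.norm
      exact (Complex.continuous_ofReal.continuousOn).mul hA'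
    have e1 : ∫ s in Y..y, ‖A' s‖ ^ 2 ≤ ∫ s in Y..y, 1 / Y ^ 2 * ‖(s : ℂ) * A' s‖ ^ 2 := by
      apply intervalIntegral.integral_mono_on hy.1
      · apply ContinuousOn.intervalIntegrable
        rw [uIcc_of_le hy.1]
        exact ((hA'.mono hsub).norm).pow 2
      · apply ContinuousOn.intervalIntegrable
        rw [uIcc_of_le hy.1]
        exact (continuousOn_const.mul (hg.mono hsub))
      · intro s hs
        have hs0 : 0 < s := hY.trans_le hs.1
        rw [norm_mul, mul_pow, Complex.norm_real, Real.norm_eq_abs, sq_abs]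
        have : 1 ≤ 1 / Y ^ 2 * s ^ 2 := by
          rw [one_div, inv_mul_eq_div, le_div_iff₀ (by positivity), one_mul]
          exact pow_le_pow_left₀ hY.le hs.1 2
        nlinarith [sq_nonneg ‖A' s‖]
    refine e1.trans ?_
    rw [intervalIntegral.integral_const_mul]
    apply mul_le_mul_of_nonneg_left _ (by positivity)
    have hgi : IntervalIntegrable (fun s => ‖(s : ℂ) * A' s‖ ^ 2) volume Y (c * Y) := by
      apply ContinuousOn.intervalIntegrable; rwa [uIcc_of_le hYc]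
    have hgi2 : IntervalIntegrable (fun s => ‖(s : ℂ) * A' s‖ ^ 2) volume Y y := by
      apply ContinuousOn.intervalIntegrable; rw [uIcc_of_le hy.1]; exact hg.mono hsub
    have hgi3 : IntervalIntegrable (fun s => ‖(s : ℂ) * A' s‖ ^ 2) volume y (c * Y) := by
      apply ContinuousOn.intervalIntegrable; rw [uIcc_of_le hy.2]
      exact hg.mono (Icc_subset_Icc_left hy.1)
    rw [← intervalIntegral.integral_add_adjacent_intervals hgi2 hgi3]
    have := intervalIntegral.integral_nonneg (μ := volume) hy.2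
      (f := fun s => ‖(s : ℂ) * A' s‖ ^ 2) fun s _ => by positivity
    linarith
  have h4 : ‖A y‖ ^ 2 ≤ 2 * ‖A Y‖ ^ 2 + 2 * ‖A y - A Y‖ ^ 2 := by
    have e : ‖A y‖ ≤ ‖A Y‖ + ‖A y - A Y‖ := by
      have := norm_add_le (A Y) (A y - A Y)
      simpa using this
    have := pow_le_pow_left₀ (norm_nonneg _) e 2
    nlinarith [sq_nonneg (‖A Y‖ - ‖A y - A Y‖)]
  have hJ : 0 ≤ ∫ s in Y..(c * Y), ‖(s : ℂ) * A' s‖ ^ 2 :=
    intervalIntegral.integral_nonneg hYc fun s _ => by positivity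
  have h5 : (y - Y) * ∫ s in Y..y, ‖A' s‖ ^ 2 ≤ (c - 1) / Y * ∫ s in Y..(c * Y), ‖(s : ℂ) * A' s‖ ^ 2 := by
    have e1 : 0 ≤ ∫ s in Y..y, ‖A' s‖ ^ 2 :=
      intervalIntegral.integral_nonneg hy.1 fun s _ => by positivity
    calc (y - Y) * ∫ s in Y..y, ‖A' s‖ ^ 2 ≤ (c * Y - Y) * ∫ s in Y..y, ‖A' s‖ ^ 2 := by
          apply mul_le_mul_of_nonneg_right _ e1; linarith [hy.2]
      _ ≤ (c * Y - Y) * (1 / Y ^ 2 * ∫ s in Y..(c * Y), ‖(s : ℂ) * A' s‖ ^ 2) := by
          apply mul_le_mul_of_nonneg_left h3; linarith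
      _ = _ := by field_simp
  calc ‖A y‖ ^ 2 ≤ 2 * ‖A Y‖ ^ 2 + 2 * ‖A y - A Y‖ ^ 2 := h4
    _ ≤ 2 * ‖A Y‖ ^ 2 + 2 * ((c - 1) / Y * ∫ s in Y..(c * Y), ‖(s : ℂ) * A' s‖ ^ 2) := by
        linarith [h2.trans h5]
    _ = _ := by ring

/-- **Sobolev in the scale.** Arbitrary points `y_m ∈ [Y, cY]`. -/
theorem sobolev_scale {ι : Type*} (S : Finset ι) {A A' : ι → ℝ → ℂ} {Y c M0 M1 : ℝ} (hY : 0 < Y)
    (hc : 1 ≤ c) (hA : ∀ m ∈ S, ∀ s ∈ Icc Y (c * Y), HasDerivAt (A m) (A' m s) s)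
    (hA' : ∀ m ∈ S, ContinuousOn (A' m) (Icc Y (c * Y)))
    (h0 : ∑ m ∈ S, ‖A m Y‖ ^ 2 ≤ M0)
    (h1 : ∀ s ∈ Icc Y (c * Y), ∑ m ∈ S, ‖(s : ℂ) * A' m s‖ ^ 2 ≤ M1)
    {y : ι → ℝ} (hy : ∀ m ∈ S, y m ∈ Icc Y (c * Y)) :
    ∑ m ∈ S, ‖A m (y m)‖ ^ 2 ≤ 2 * M0 + 2 * (c - 1) ^ 2 * M1 := by
  have hYc : Y ≤ c * Y := by nlinarith
  have hgi : ∀ m ∈ S, IntervalIntegrable (fun s => ‖(s : ℂ) * A' m s‖ ^ 2) volume Y (c * Y) := by
    intro m hm
    apply ContinuousOn.intervalIntegrable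
    rw [uIcc_of_le hYc]
    apply ContinuousOn.pow
    apply ContinuousOn.norm
    exact (Complex.continuous_ofReal.continuousOn).mul (hA' m hm)
  calc ∑ m ∈ S, ‖A m (y m)‖ ^ 2
      ≤ ∑ m ∈ S, (2 * ‖A m Y‖ ^ 2 + 2 * (c - 1) / Y * ∫ s in Y..(c * Y), ‖(s : ℂ) * A' m s‖ ^ 2) :=
        Finset.sum_le_sum fun m hm => sq_norm_le_scale hY hc (hA m hm) (hA' m hm) (hy m hm)
    _ = 2 * ∑ m ∈ S, ‖A m Y‖ ^ 2 +
        2 * (c - 1) / Y * ∫ s in Y..(c * Y), ∑ m ∈ S, ‖(s : ℂ) * A' m s‖ ^ 2 := by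
        rw [Finset.sum_add_distrib, ← Finset.mul_sum, ← Finset.mul_sum,
          intervalIntegral.integral_finsetSum hgi]
    _ ≤ 2 * M0 + 2 * (c - 1) / Y * (M1 * (c * Y - Y)) := by
        have hc1 : 0 ≤ 2 * (c - 1) / Y := by
          apply div_nonneg _ hY.le; linarith
        have e1 : ∫ s in Y..(c * Y), ∑ m ∈ S, ‖(s : ℂ) * A' m s‖ ^ 2 ≤ ∫ s in Y..(c * Y), M1 := by
          apply intervalIntegral.integral_mono_on hYc _ intervalIntegrable_const h1
          have := IntervalIntegrable.sum S hgi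
          refine this.congr_ae (Eventually.of_forall fun x => ?_)
          simp only [Finset.sum_apply]
        rw [intervalIntegral.integral_const, smul_eq_mul] at e1
        have e2 : (c * Y - Y) * M1 = M1 * (c * Y - Y) := mul_comm _ _
        rw [e2] at e1
        have := mul_le_mul_of_nonneg_left e1 hc1
        linarith
    _ = _ := by field_simp

/-- Euler operator `x U'(x)` -/
lemma Nice.eul (H : Nice U a b) : Nice (fun x => (x : ℂ) * _root_.deriv U x) a b where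
  smooth := Complex.ofRealCLM.contDiff.mul H.deriv.smooth
  pos := H.pos
  le := H.le
  supp := fun x hx => by rw [H.deriv.supp x hx, mul_zero]

/-- derivative in the scale of a weight -/
lemma Nice.hasDerivAt_scale (H : Nice U a b) (n : ℝ) {y : ℝ} (hy : 0 < y) :
    HasDerivAt (fun y : ℝ => U (n / y)) (-(1 / y : ℝ) * (((n / y : ℝ) : ℂ) * _root_.deriv U (n / y))) y := by
  have h1 : HasDerivAt (fun y : ℝ => n / y) (-(n / y ^ 2)) y := by
    have := (hasDerivAt_inv hy.ne').const_mul n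
    refine this.congr_deriv ?_
    field_simp
  have h2 : HasDerivAt U (_root_.deriv U (n / y)) (n / y) :=
    ((H.smooth.differentiable (by simp)) _).hasDerivAt
  have h3 := HasDerivAt.scomp y h2 h1
  refine h3.congr_deriv ?_
  rw [Complex.real_smul]
  have hyc : (y : ℂ) ≠ 0 := by exact_mod_cast hy.ne'
  push_cast
  field_simp

/-- Mellin transform of the Euler operator -/
lemma Nice.mellin_eul (H : Nice U a b) (s : ℂ) :
    ∫ x in Ioi (0 : ℝ), ((x : ℂ) * _root_.deriv U x) * (x : ℂ) ^ (s - 1) =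
      -s * ∫ x in Ioi (0 : ℝ), U x * (x : ℂ) ^ (s - 1) := by
  have hsm : ∀ {V : ℝ → ℂ}, Nice V a b → ∀ s : ℂ, ContDiff ℝ ∞ (fun x : ℝ => V x * (x : ℂ) ^ s) := by
    intro V HV s
    rw [contDiff_iff_contDiffAt]
    intro x
    by_cases hx : x < a
    · have : (fun x : ℝ => V x * (x : ℂ) ^ s) =ᶠ[𝓝 x] fun _ => 0 := by
        filter_upwards [Iio_mem_nhds hx] with y hy
        rw [HV.eq_zero_of_le hy, zero_mul]
      exact contDiffAt_const.congr_of_eventuallyEq this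
    · have hx0 : 0 < x := by have := H.pos; linarith
      apply HV.smooth.contDiffAt.mul
      have h1 : (fun x : ℝ => (x : ℂ) ^ s) =ᶠ[𝓝 x] fun x : ℝ => Complex.exp (((Real.log x : ℝ) : ℂ) * s) := by
        filter_upwards [Ioi_mem_nhds hx0] with y hy
        have hy' : (0 : ℝ) < y := hy
        rw [Complex.cpow_def_of_ne_zero (by exact_mod_cast hy'.ne'), ← Complex.ofReal_log hy'.le]
      refine ContDiffAt.congr_of_eventuallyEq ?_ h1
      apply ContDiffAt.cexp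
      apply ContDiffAt.mul _ contDiffAt_const
      exact Complex.ofRealCLM.contDiff.contDiffAt.comp x (Real.contDiffAt_log.2 hx0.ne')
  have hcs : ∀ {V : ℝ → ℂ}, Nice V a b → ∀ s : ℂ, HasCompactSupport (fun x : ℝ => V x * (x : ℂ) ^ s) := by
    intro V HV s
    exact HV.hcs.mul_right
  have h1 := HasCompactSupport.integral_Ioi_deriv_eq ((hsm H s).of_le (by exact_mod_cast le_top))
    (hcs H s) 0
  rw [H.eq_zero_of_nonpos le_rfl, zero_mul, neg_zero] at h1
  have h2 : ∫ x in Ioi (0 : ℝ), _root_.deriv (fun x : ℝ => U x * (x : ℂ) ^ s) x =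
      ∫ x in Ioi (0 : ℝ), (((x : ℂ) * _root_.deriv U x) * (x : ℂ) ^ (s - 1) +
        s * (U x * (x : ℂ) ^ (s - 1))) := by
    apply setIntegral_congr_fun measurableSet_Ioi
    intro x hx
    have hx' : (0 : ℝ) < x := hx
    have e1 : HasDerivAt U (_root_.deriv U x) x := ((H.smooth.differentiable (by simp)) _).hasDerivAt
    have e2 : HasDerivAt (fun x : ℝ => (x : ℂ) ^ s) (s * (x : ℂ) ^ (s - 1)) x := by
      have := ((hasDerivAt_id (x : ℂ)).cpow_const (c := s) (by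
        left; simpa using hx')).comp_ofReal
      simpa using this
    have e3 : HasDerivAt (fun x : ℝ => U x * (x : ℂ) ^ s)
      (_root_.deriv U x * (x : ℂ) ^ s + U x * (s * (x : ℂ) ^ (s - 1))) x := e1.mul e2
    simp only
    rw [e3.deriv]
    have e4 : (x : ℂ) ^ s = (x : ℂ) ^ (s - 1) * x := by
      conv_lhs => rw [show s = (s - 1) + 1 by ring]
      rw [Complex.cpow_add _ _ (by exact_mod_cast hx'.ne'), Complex.cpow_one]
    rw [e4]
    ring
  have i1 : Integrable (fun x : ℝ => ((x : ℂ) * _root_.deriv U x) * (x : ℂ) ^ (s - 1)) :=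
    (hsm H.eul (s - 1)).continuous.integrable_of_hasCompactSupport (hcs H.eul (s - 1))
  have i2 : Integrable (fun x : ℝ => U x * (x : ℂ) ^ (s - 1)) :=
    (hsm H (s - 1)).continuous.integrable_of_hasCompactSupport (hcs H (s - 1))
  rw [h2, integral_add i1.integrableOn (i2.const_mul s).integrableOn, integral_const_mul] at h1
  linear_combination h1

/-- derivative in the scale of a finite sum minus its expected main term -/
theorem Nice.hasDerivAt_err (H : Nice U a b) {α : Type*} (D : Finset α) (g : α → ℂ) (n : α → ℝ)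
    (θ s : ℂ) {y : ℝ} (hy : 0 < y) :
    HasDerivAt (fun y : ℝ => ∑ d ∈ D, g d * U (n d / y) -
        θ * (y : ℂ) ^ s * ∫ x in Ioi (0 : ℝ), U x * (x : ℂ) ^ (s - 1))
      (-(1 / y : ℝ) * (∑ d ∈ D, g d * (((n d / y : ℝ) : ℂ) * _root_.deriv U (n d / y)) -
        θ * (y : ℂ) ^ s * ∫ x in Ioi (0 : ℝ), ((x : ℂ) * _root_.deriv U x) * (x : ℂ) ^ (s - 1))) y := by
  have h1 : HasDerivAt (fun y : ℝ => ∑ d ∈ D, g d * U (n d / y))
      (∑ d ∈ D, g d * (-(1 / y : ℝ) * (((n d / y : ℝ) : ℂ) * _root_.deriv U (n d / y)))) y :=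
    HasDerivAt.fun_sum fun d _ => (H.hasDerivAt_scale (n d) hy).const_mul (g d)
  have h2 : HasDerivAt (fun y : ℝ => (y : ℂ) ^ s) (s * (y : ℂ) ^ (s - 1)) y := by
    have := ((hasDerivAt_id (y : ℂ)).cpow_const (c := s) (by
      left; simpa using hy)).comp_ofReal
    simpa using this
  have h3 := h1.sub ((h2.const_mul θ).mul_const (∫ x in Ioi (0 : ℝ), U x * (x : ℂ) ^ (s - 1)))
  refine h3.congr_deriv ?_
  rw [H.mellin_eul s]
  have hyc : (y : ℂ) ≠ 0 := by exact_mod_cast hy.ne'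
  have e4 : (y : ℂ) ^ s = (y : ℂ) ^ (s - 1) * y := by
    conv_lhs => rw [show s = (s - 1) + 1 by ring]
    rw [Complex.cpow_add _ _ hyc, Complex.cpow_one]
  rw [e4, mul_sub, Finset.mul_sum]
  congr 1
  · apply Finset.sum_congr rfl
    intro d _
    ring
  · push_cast
    field_simp

/-- a finite smooth sum at scale `y` minus its expected main term -/
noncomputable def errS {α : Type*} (D : Finset α) (g : α → ℂ) (n : α → ℝ) (θ s : ℂ) (U : ℝ → ℂ)
    (y : ℝ) : ℂ :=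
  ∑ d ∈ D, g d * U (n d / y) - θ * (y : ℂ) ^ s * ∫ x in Ioi (0 : ℝ), U x * (x : ℂ) ^ (s - 1)

lemma Nice.hasDerivAt_errS (H : Nice U a b) {α : Type*} (D : Finset α) (g : α → ℂ) (n : α → ℝ)
    (θ s : ℂ) {κ : ℝ} (hκ : 0 < κ) {β : ℝ} (hβ : 0 < β) :
    HasDerivAt (fun β : ℝ => errS D g n θ s U (β * κ))
      (-(1 / β : ℝ) * errS D g n θ s (fun x => (x : ℂ) * _root_.deriv U x) (β * κ)) β := by
  have h1 := H.hasDerivAt_err D g n θ s (y := β * κ) (by positivity)
  have h2 : HasDerivAt (fun β : ℝ => β * κ) κ β := by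
    simpa using (hasDerivAt_id β).mul_const κ
  have h3 := HasDerivAt.scomp β h1 h2
  refine h3.congr_deriv ?_
  rw [Complex.real_smul]
  unfold errS
  have hβc : (β : ℂ) ≠ 0 := by exact_mod_cast hβ.ne'
  have hκc : (κ : ℂ) ≠ 0 := by exact_mod_cast hκ.ne'
  push_cast
  field_simp

/-- **Moving lengths.** Mean square bounds at the proportional scales `β κ_m` imply the mean square
bound at arbitrary scales `y_m ∈ [Y, 2Y]`. -/
theorem Nice.moving_lengths (H : Nice U a b) {ι α : Type*} (S : Finset ι) (D : Finset α)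
    (g : ι → α → ℂ) (n : α → ℝ) (θ : ι → ℂ) (s : ℂ) {κ : ι → ℝ} {k : ℝ}
    (hκ : ∀ m ∈ S, 1 ≤ κ m ∧ κ m ≤ k) (hk : 1 ≤ k) {Y M0 M1 : ℝ} (hY : 0 < Y)
    (h0 : ∑ m ∈ S, ‖errS D (g m) n (θ m) s U (Y / k * κ m)‖ ^ 2 ≤ M0)
    (h1 : ∀ β ∈ Icc (Y / k) (2 * Y),
      ∑ m ∈ S, ‖errS D (g m) n (θ m) s (fun x => (x : ℂ) * _root_.deriv U x) (β * κ m)‖ ^ 2 ≤ M1)
    {y : ι → ℝ} (hy : ∀ m ∈ S, y m ∈ Icc Y (2 * Y)) :
    ∑ m ∈ S, ‖errS D (g m) n (θ m) s U (y m)‖ ^ 2 ≤ 2 * M0 + 2 * (2 * k - 1) ^ 2 * M1 := by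
  have hk0 : 0 < k := by linarith
  have hYk : 0 < Y / k := by positivity
  have e : 2 * k * (Y / k) = 2 * Y := by field_simp
  have hpos : ∀ β ∈ Icc (Y / k) (2 * k * (Y / k)), 0 < β := fun β hβ => hYk.trans_le hβ.1
  have key := sobolev_scale S (A := fun m β => errS D (g m) n (θ m) s U (β * κ m))
    (A' := fun m β => -(1 / β : ℝ) *
      errS D (g m) n (θ m) s (fun x => (x : ℂ) * _root_.deriv U x) (β * κ m))
    (Y := Y / k) (c := 2 * k) (M0 := M0) (M1 := M1) hYk (by linarith)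
    (fun m hm β hβ => H.hasDerivAt_errS D (g m) n (θ m) s (by linarith [(hκ m hm).1]) (hpos β hβ))
    (fun m hm => by
      apply ContinuousOn.mul
      · apply ContinuousOn.neg
        apply Complex.continuous_ofReal.comp_continuousOn
        exact continuousOn_const.div continuousOn_id fun x hx => (hpos x hx).ne'
      · intro β hβ
        exact (H.eul.hasDerivAt_errS D (g m) n (θ m) s (by linarith [(hκ m hm).1])
          (hpos β hβ)).continuousAt.continuousWithinAt)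
    h0
    (fun β hβ => by
      refine le_trans (le_of_eq ?_) (h1 β ⟨hβ.1, hβ.2.trans e.le⟩)
      apply Finset.sum_congr rfl
      intro m _
      have hβ0 := hpos β hβ
      have hβc : (β : ℂ) ≠ 0 := by exact_mod_cast hβ0.ne'
      rw [← mul_assoc]
      have : (β : ℂ) * -((1 / β : ℝ) : ℂ) = -1 := by push_cast; field_simp
      rw [this, neg_one_mul, norm_neg])
    (y := fun m => y m / κ m)
    (fun m hm => by
      obtain ⟨k1, k2⟩ := hκ m hm
      obtain ⟨y1, y2⟩ := hy m hm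
      have hκ0 : 0 < κ m := by linarith
      refine ⟨?_, ?_⟩
      · rw [div_le_div_iff₀ hk0 hκ0]
        nlinarith
      · rw [e, div_le_iff₀ hκ0]
        nlinarith)
  refine le_trans (le_of_eq ?_) key
  apply Finset.sum_congr rfl
  intro m hm
  have hκ0 : κ m ≠ 0 := by
    have := (hκ m hm).1
    intro h0'
    rw [h0'] at this
    linarith
  rw [div_mul_cancel₀ _ hκ0]

end Vale.Agent.P006.KER
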