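import Vale.Agent.P006.V2.FCIn
import Vale.Agent.P006.KER.Scale

/-!
From the mean square at proportional scales (one profile per dyadic block of frequencies) to the
mean square with moving lengths over all frequencies.
-/

namespace Vale.Agent.P006.KER

open Vale.Agent.P006 MeasureTheory Set Filter
open Vale.Agent.P006.V2 (FS FM FCHyp)
open scoped ContDiff Topology BigOperators

variable {U : ℝ → ℂ} {a b : ℝ}

/-- **Fixed profile mean square**: frequencies in one dyadic block, scales proportional to `‖m‖`. -/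
def FXHyp (θ : O → ℂ) : Prop :=
  ∀ (U : ℝ → ℂ) (a b : ℝ), Nice U a b → ∀ ε : ℝ, 0 < ε → ∃ C : ℝ, 0 ≤ C ∧
    ∀ K Y t : ℝ, 1 ≤ K → 1 / 2 ≤ Y → ∀ S : Finset O,
      (∀ m ∈ S, K ≤ ‖toC m‖ ∧ ‖toC m‖ ≤ 2 * K) →
      ∑ m ∈ S, ‖FS U t m (Y * (‖toC m‖ / K)) - FM U t (θ m) (Y * (‖toC m‖ / K))‖ ^ 2 ≤
        C * (K * Y * (1 + |t|)) ^ ε * (K ^ 2 * Y * (1 + |t|) + Y * (1 + |t|) ^ 3)

lemma FS_sub_FM_eq (H : Nice U a b) (t : ℝ) (m : O) (z : ℂ) {Y Z : ℝ} (hY : 0 < Y) (hYZ : b * Y ≤ Z) :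
    FS U t m Y - FM U t z Y = errS (PB Z) (fun c : O => gt m c * (N c : ℂ) ^ ((t : ℂ) * Complex.I))
      (fun c : O => (N c : ℝ)) z ((5 / 6 : ℂ) + t * Complex.I) U Y := by
  classical
  unfold FS FM errS
  congr 1
  · rw [tsum_eq_sum (s := PB Z)]
    · apply Finset.sum_congr rfl
      intro c hc
      rw [mem_PB] at hc
      rw [if_pos hc.1]
      ring
    · intro c hc
      by_cases hp : Primary c
      · rw [if_pos hp]
        have : ¬ ((N c : ℝ) ≤ Z) := fun h => hc (mem_PB.2 ⟨hp, h⟩)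
        have h2 : b < (N c : ℝ) / Y := by
          rw [lt_div_iff₀ hY]
          linarith
        rw [H.eq_zero_of_ge h2]
        ring
      · rw [if_neg hp]
  · unfold mellin
    rw [← mul_assoc]
    congr 1
    apply setIntegral_congr_fun measurableSet_Ioi
    intro x _
    simp only [smul_eq_mul]
    ring

/-- number of dyadic blocks -/
lemma natLog_le_rpow {ε : ℝ} (hε : 0 < ε) {R : ℝ} (hR : 1 ≤ R) :
    ((Nat.log 4 ⌊R⌋₊ : ℕ) : ℝ) + 1 ≤ (1 + 1 / ε) * R ^ ε := by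
  have h1 : (1 : ℝ) ≤ R ^ ε := Real.one_le_rpow hR hε.le
  have h2 : Real.log R ≤ R ^ ε / ε := Real.log_le_rpow_div (by linarith) hε
  have h3 : ((Nat.log 4 ⌊R⌋₊ : ℕ) : ℝ) ≤ Real.log R := by
    have hf : ⌊R⌋₊ ≠ 0 := by
      have : 1 ≤ ⌊R⌋₊ := Nat.le_floor (by exact_mod_cast hR)
      omega
    have h4 : 4 ^ Nat.log 4 ⌊R⌋₊ ≤ ⌊R⌋₊ := Nat.pow_log_le_self 4 hf
    have h5 : (4 : ℝ) ^ Nat.log 4 ⌊R⌋₊ ≤ R := by
      have : ((4 ^ Nat.log 4 ⌊R⌋₊ : ℕ) : ℝ) ≤ (⌊R⌋₊ : ℝ) := by exact_mod_cast h4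
      push_cast at this
      exact this.trans (Nat.floor_le (by linarith))
    have h6 := Real.log_le_log (by positivity) h5
    rw [Real.log_pow] at h6
    have h7 : 1 ≤ Real.log 4 := by
      rw [Real.le_log_iff_exp_le (by norm_num)]
      have := Real.exp_one_lt_d9
      linarith
    have h8 : (0 : ℝ) ≤ (Nat.log 4 ⌊R⌋₊ : ℕ) := by positivity
    nlinarith
  have : (1 + 1 / ε) * R ^ ε = R ^ ε + R ^ ε / ε := by ring
  rw [this]
  linarith

theorem fcHyp_of_FX {θ : O → ℂ} (h : FXHyp θ) : FCHyp θ := by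
  classical
  intro U a b H ε hε
  obtain ⟨C0, hC0, h0⟩ := h U a b H (ε / 2) (by linarith)
  obtain ⟨C1, hC1, h1⟩ := h _ a b H.eul (ε / 2) (by linarith)
  refine ⟨(2 * C0 + 18 * C1) * (2 ^ (ε / 2) * 2) * (1 + 1 / (ε / 2)), by positivity, ?_⟩
  intro R Y t hR hY S y hS hy
  have hb : 0 < b := H.pos.trans_le H.le
  have hR0 : 0 < R := by linarith
  have hY0 : 0 < Y := by linarith
  have hT1 : 1 ≤ 1 + |t| := by linarith [abs_nonneg t]
  have hT0 : 0 < 1 + |t| := by linarith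
  set J : ℕ := Nat.log 4 ⌊R⌋₊ with hJ
  set M : ℝ := (2 ^ (ε / 2) * 2) * ((R * Y * (1 + |t|)) ^ (ε / 2) * (R * Y * (1 + |t|) + Y * (1 + |t|) ^ 3))
    with hM
  have hM0 : 0 ≤ M := by rw [hM]; positivity
  -- one block
  have block : ∀ j ∈ Finset.range (J + 1),
      ∑ m ∈ S with Nat.log 4 (N m) = j, ‖FS U t m (y m) - FM U t (θ m) (y m)‖ ^ 2 ≤
        (2 * C0 + 18 * C1) * M := by
    intro j hj
    rw [Finset.mem_range] at hj
    set Sj := S.filter (fun m => Nat.log 4 (N m) = j) with hSj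
    set K : ℝ := 2 ^ j with hK
    have hK0 : 0 < K := by positivity
    have hK1 : 1 ≤ K := one_le_pow₀ (by norm_num)
    have hK2 : K ^ 2 = 4 ^ j := by rw [hK, ← pow_mul, mul_comm, pow_mul]; norm_num
    have hKR : K ^ 2 ≤ R := by
      rw [hK2]
      have hf : ⌊R⌋₊ ≠ 0 := by
        have : 1 ≤ ⌊R⌋₊ := Nat.le_floor (by exact_mod_cast hR)
        omega
      have h5 : 4 ^ j ≤ ⌊R⌋₊ := (Nat.pow_le_pow_right (by norm_num) (by omega)).trans
        (Nat.pow_log_le_self 4 hf)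
      have : ((4 ^ j : ℕ) : ℝ) ≤ (⌊R⌋₊ : ℝ) := by exact_mod_cast h5
      push_cast at this
      exact this.trans (Nat.floor_le (by linarith))
    have hKR' : K ≤ R := by nlinarith
    have hnorm : ∀ m ∈ Sj, K ≤ ‖toC m‖ ∧ ‖toC m‖ ≤ 2 * K := by
      intro m hm
      rw [hSj, Finset.mem_filter] at hm
      have hm0 : m ≠ 0 := (hS m hm.1).1
      have hN0 : N m ≠ 0 := (N_pos hm0).ne'
      have e1 : 4 ^ j ≤ N m := by rw [← hm.2]; exact Nat.pow_log_le_self 4 hN0
      have e2 : N m < 4 ^ (j + 1) := by rw [← hm.2]; exact Nat.lt_pow_succ_log_self (by norm_num) _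
      have e1' : (4 : ℝ) ^ j ≤ N m := by exact_mod_cast e1
      have e2' : (N m : ℝ) ≤ 4 ^ (j + 1) := by exact_mod_cast e2.le
      rw [N_eq_sq_norm] at e1' e2'
      constructor
      · apply le_of_sq_le_sq _ (norm_nonneg _)
        rw [hK2]; exact e1'
      · apply le_of_sq_le_sq _ (by positivity)
        rw [mul_pow, hK2]
        have e3 : (4 : ℝ) ^ (j + 1) = 2 ^ 2 * 4 ^ j := by rw [pow_succ]; ring
        rw [← e3]
        exact e2'
    have hκ : ∀ m ∈ Sj, 1 ≤ ‖toC m‖ / K ∧ ‖toC m‖ / K ≤ 2 := by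
      intro m hm
      obtain ⟨e1, e2⟩ := hnorm m hm
      exact ⟨by rw [le_div_iff₀ hK0]; linarith, by rw [div_le_iff₀ hK0]; linarith⟩
    -- bound for the right hand side at all scales
    have hrhs : ∀ C' β : ℝ, 0 ≤ C' → 1 / 2 ≤ β → β ≤ 2 * Y →
        C' * (K * β * (1 + |t|)) ^ (ε / 2) * (K ^ 2 * β * (1 + |t|) + β * (1 + |t|) ^ 3) ≤ C' * M := by
      intro C' β hC' hβ1 hβ2
      have hβ0 : 0 < β := by linarith
      have e1 : (K * β * (1 + |t|)) ^ (ε / 2) ≤ 2 ^ (ε / 2) * (R * Y * (1 + |t|)) ^ (ε / 2) := by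
        rw [← Real.mul_rpow (by norm_num) (by positivity)]
        apply Real.rpow_le_rpow (by positivity) _ (by linarith)
        calc K * β * (1 + |t|) ≤ R * (2 * Y) * (1 + |t|) := by gcongr
          _ = _ := by ring
      have e2 : K ^ 2 * β * (1 + |t|) + β * (1 + |t|) ^ 3 ≤
          2 * (R * Y * (1 + |t|) + Y * (1 + |t|) ^ 3) := by
        calc K ^ 2 * β * (1 + |t|) + β * (1 + |t|) ^ 3
            ≤ R * (2 * Y) * (1 + |t|) + (2 * Y) * (1 + |t|) ^ 3 := by gcongr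
          _ = _ := by ring
      calc C' * (K * β * (1 + |t|)) ^ (ε / 2) * (K ^ 2 * β * (1 + |t|) + β * (1 + |t|) ^ 3)
          ≤ C' * (2 ^ (ε / 2) * (R * Y * (1 + |t|)) ^ (ε / 2)) *
            (2 * (R * Y * (1 + |t|) + Y * (1 + |t|) ^ 3)) := by gcongr
        _ = C' * M := by rw [hM]; ring
    have key := H.moving_lengths Sj (PB (4 * b * Y))
      (fun m c => gt m c * (N c : ℂ) ^ ((t : ℂ) * Complex.I)) (fun c : O => (N c : ℝ)) θ
      ((5 / 6 : ℂ) + t * Complex.I) (κ := fun m => ‖toC m‖ / K) (k := 2) hκ (by norm_num)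
      (Y := Y) (M0 := C0 * M) (M1 := C1 * M) hY0
      (by
        refine le_trans (le_of_eq ?_) ((h0 K (Y / 2) t hK1 (by linarith) Sj hnorm).trans
          (hrhs C0 (Y / 2) hC0 (by linarith) (by linarith)))
        apply Finset.sum_congr rfl
        intro m hm
        obtain ⟨k1, k2⟩ := hκ m hm
        rw [FS_sub_FM_eq H t m (θ m) (Z := 4 * b * Y) (by positivity) (by nlinarith [mul_pos hb hY0])])
      (by
        intro β hβ
        have hβ0 : 0 < β := lt_of_lt_of_le (by positivity) hβ.1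
        have hβ1 : 1 / 2 ≤ β := by linarith [hβ.1]
        refine le_trans (le_of_eq ?_) ((h1 K β t hK1 hβ1 Sj hnorm).trans
          (hrhs C1 β hC1 hβ1 hβ.2))
        apply Finset.sum_congr rfl
        intro m hm
        obtain ⟨k1, k2⟩ := hκ m hm
        have e3 : β * (‖toC m‖ / K) ≤ 2 * Y * 2 :=
          mul_le_mul hβ.2 k2 (by linarith) (by linarith)
        rw [FS_sub_FM_eq H.eul t m (θ m) (Z := 4 * b * Y) (by positivity)
          (by nlinarith [mul_le_mul_of_nonneg_left e3 hb.le])])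
      (y := y) (fun m hm => by
        rw [hSj, Finset.mem_filter] at hm
        exact hy m hm.1)
    refine le_trans (le_of_eq ?_) (key.trans (le_of_eq ?_))
    · apply Finset.sum_congr rfl
      intro m hm
      rw [hSj, Finset.mem_filter] at hm
      have hym := hy m hm.1
      rw [FS_sub_FM_eq H t m (θ m) (Z := 4 * b * Y) (by linarith [hym.1])
        (by nlinarith [mul_le_mul_of_nonneg_left hym.2 hb.le, mul_pos hb hY0])]
    · ring
  -- sum over the blocks
  have hmaps : ∀ m ∈ S, Nat.log 4 (N m) ∈ Finset.range (J + 1) := by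
    intro m hm
    rw [Finset.mem_range]
    have e1 : N m ≤ ⌊R⌋₊ := Nat.le_floor (hS m hm).2
    have := Nat.log_mono_right (b := 4) e1
    omega
  rw [← Finset.sum_fiberwise_of_maps_to hmaps]
  calc ∑ j ∈ Finset.range (J + 1), ∑ m ∈ S with Nat.log 4 (N m) = j,
        ‖FS U t m (y m) - FM U t (θ m) (y m)‖ ^ 2
      ≤ ∑ j ∈ Finset.range (J + 1), (2 * C0 + 18 * C1) * M := Finset.sum_le_sum block
    _ = ((J : ℝ) + 1) * ((2 * C0 + 18 * C1) * M) := by
        rw [Finset.sum_const, Finset.card_range, nsmul_eq_mul]; push_cast; ring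
    _ ≤ ((1 + 1 / (ε / 2)) * (R * Y * (1 + |t|)) ^ (ε / 2)) * ((2 * C0 + 18 * C1) * M) := by
        apply mul_le_mul_of_nonneg_right _ (by positivity)
        refine (natLog_le_rpow (show 0 < ε / 2 by linarith) hR).trans ?_
        apply mul_le_mul_of_nonneg_left _ (by positivity)
        apply Real.rpow_le_rpow hR0.le _ (by linarith)
        calc R = R * 1 * 1 := by ring
          _ ≤ R * Y * (1 + |t|) := by gcongr
    _ = _ := by
        rw [hM]
        have e : (R * Y * (1 + |t|)) ^ ε = (R * Y * (1 + |t|)) ^ (ε / 2) * (R * Y * (1 + |t|)) ^ (ε / 2) := by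
          rw [← Real.rpow_add (by positivity)]; congr 1; ring
        rw [e]
        ring

end Vale.Agent.P006.KER
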