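import Mathlib
import Vale.Agent.P006.KER.Mom2
import Vale.Agent.P006.KER.Scale
import Vale.Agent.P006.KER.Decay

/-!
Mellin transforms of twisted weights: twist = shift, decay in the twist, and the linear functional
`l(Φ)` in Mellin form.
-/

open MeasureTheory Set Filter
open scoped Topology ContDiff

namespace Vale.Agent.P006.KER

variable {U W : ℝ → ℂ} {a b : ℝ}

/-- the twist is a shift of the Mellin transform -/
theorem mellin_tw (U : ℝ → ℂ) (t : ℝ) (s : ℂ) :
    mellin (tw U t) s = mellin U (s + t * Complex.I) := by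
  unfold mellin
  apply setIntegral_congr_fun measurableSet_Ioi
  intro x hx
  have hx' : (0 : ℝ) < x := hx
  have hxc : (x : ℂ) ≠ 0 := by exact_mod_cast hx'.ne'
  simp only [smul_eq_mul]
  rw [tw_eq_cpow U t hx', show s + t * Complex.I - 1 = (s - 1) + t * Complex.I by ring,
    Complex.cpow_add _ _ hxc]
  ring

lemma mellin_eq (U : ℝ → ℂ) (s : ℂ) : mellin U s = ∫ x in Ioi (0 : ℝ), U x * (x : ℂ) ^ (s - 1) := by
  unfold mellin
  apply setIntegral_congr_fun measurableSet_Ioi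
  intro x _
  simp only [smul_eq_mul]
  ring

theorem Nice.mellin_eul' (H : Nice U a b) (s : ℂ) :
    mellin (fun x => (x : ℂ) * _root_.deriv U x) s = -s * mellin U s := by
  rw [mellin_eq, mellin_eq]
  exact H.mellin_eul s

/-- rapid decay of the Mellin transform on vertical lines -/
theorem Nice.mellin_decay {σ : ℝ} (hσ : 0 < σ) (n : ℕ) : ∀ {U : ℝ → ℂ}, Nice U a b →
    ∃ C : ℝ, 0 ≤ C ∧ ∀ t : ℝ, ‖mellin U ((σ : ℂ) + t * Complex.I)‖ ≤ C / (1 + |t|) ^ n := by
  induction n with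
  | zero =>
    intro U H
    refine ⟨∫ x in Ioi (0 : ℝ), x ^ (σ - 1) * ‖U x‖, ?_, fun t => ?_⟩
    · apply setIntegral_nonneg measurableSet_Ioi
      intro x hx
      have hx' : (0 : ℝ) < x := hx
      positivity
    · rw [pow_zero, div_one]
      unfold mellin
      refine (norm_integral_le_integral_norm _).trans (le_of_eq ?_)
      apply setIntegral_congr_fun measurableSet_Ioi
      intro x hx
      have hx' : (0 : ℝ) < x := hx
      simp only [norm_smul]
      rw [Complex.norm_cpow_eq_rpow_re_of_pos hx']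
      simp
  | succ n ih =>
    intro U H
    obtain ⟨C, hC, h1⟩ := ih H.eul
    refine ⟨C * (1 + 1 / σ), by positivity, fun t => ?_⟩
    have h2 := h1 t
    rw [H.mellin_eul', norm_mul, norm_neg] at h2
    have hs1 : σ ≤ ‖(σ : ℂ) + t * Complex.I‖ := by
      have := Complex.abs_re_le_norm ((σ : ℂ) + t * Complex.I)
      simp at this
      rwa [abs_of_pos hσ] at this
    have hs2 : |t| ≤ ‖(σ : ℂ) + t * Complex.I‖ := by
      have := Complex.abs_im_le_norm ((σ : ℂ) + t * Complex.I)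
      simpa using this
    have hT : 0 < 1 + |t| := by positivity
    have hs3 : 1 + |t| ≤ (1 + 1 / σ) * ‖(σ : ℂ) + t * Complex.I‖ := by
      have : 1 ≤ 1 / σ * ‖(σ : ℂ) + t * Complex.I‖ := by
        rw [one_div, inv_mul_eq_div, le_div_iff₀ hσ]; linarith
      nlinarith
    set m := ‖mellin U ((σ : ℂ) + t * Complex.I)‖ with hm
    have hm0 : 0 ≤ m := norm_nonneg _
    rw [le_div_iff₀ (by positivity)] at h2 ⊢
    calc m * (1 + |t|) ^ (n + 1) = (1 + |t|) * (m * (1 + |t|) ^ n) := by ring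
      _ ≤ ((1 + 1 / σ) * ‖(σ : ℂ) + t * Complex.I‖) * (m * (1 + |t|) ^ n) := by gcongr
      _ = (1 + 1 / σ) * (‖(σ : ℂ) + t * Complex.I‖ * m * (1 + |t|) ^ n) := by ring
      _ ≤ (1 + 1 / σ) * C := by gcongr
      _ = _ := by ring

/-- the constant in `l(Φ)` -/
noncomputable def lc (K B : ℝ) : ℝ :=
  K ^ 3 / Real.pi ^ 2 * (B / K) ^ (4 / 3 : ℝ) * (Real.Gamma (1 / 3) / 2) * 2 ^ (1 / 3 : ℝ)

lemma lc_pos {K B : ℝ} (hK : 0 < K) (hB : 0 < B) : 0 < lc K B := by
  unfold lc
  have : 0 < Real.Gamma (1 / 3) := Real.Gamma_pos_of_pos (by norm_num)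
  positivity

/-- `l(Φ)` in Mellin form -/
theorem lfun_Phi_mellin (H : Nice W a b) {K B : ℝ} (hK : 0 < K) (hB : 0 < B) :
    ∫ v in Ioi (0 : ℝ), Phi W K B v * ((v ^ (1 / 3 : ℝ) : ℝ) : ℂ) =
      (lc K B : ℂ) * mellin W (4 / 3 : ℂ) := by
  rw [lfun_Phi H hK hB, lc]
  have h1 : ∫ s in Ioi (0 : ℝ), W s * (((2 * s) ^ (1 / 3 : ℝ) : ℝ) : ℂ) =
      ((2 ^ (1 / 3 : ℝ) : ℝ) : ℂ) * mellin W (4 / 3 : ℂ) := by
    rw [mellin_eq, ← integral_const_mul]
    apply setIntegral_congr_fun measurableSet_Ioi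
    intro s hs
    have hs' : (0 : ℝ) < s := hs
    simp only
    rw [Real.mul_rpow (by norm_num) hs'.le]
    have : (s : ℂ) ^ ((4 / 3 : ℂ) - 1) = ((s ^ (1 / 3 : ℝ) : ℝ) : ℂ) := by
      rw [Complex.ofReal_cpow hs'.le]
      congr 1
      push_cast
      norm_num
    rw [this]
    push_cast
    ring
  rw [h1, ← mul_assoc]
  congr 1
  push_cast
  ring

theorem lfun_Phi_tw (H : Nice U a b) (t : ℝ) {K B : ℝ} (hK : 0 < K) (hB : 0 < B) :
    ∫ v in Ioi (0 : ℝ), Phi (tw U t) K B v * ((v ^ (1 / 3 : ℝ) : ℝ) : ℂ) =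
      (lc K B : ℂ) * mellin U ((4 / 3 : ℂ) + t * Complex.I) := by
  rw [lfun_Phi_mellin (H.tw t) hK hB, mellin_tw]

lemma lc_ratio {K B B0 : ℝ} (hK : 0 < K) (hB : 0 < B) (hB0 : 0 < B0) :
    lc K B = (B / B0) ^ (4 / 3 : ℝ) * lc K B0 := by
  unfold lc
  have : (B / K) ^ (4 / 3 : ℝ) = (B / B0) ^ (4 / 3 : ℝ) * (B0 / K) ^ (4 / 3 : ℝ) := by
    rw [← Real.mul_rpow (by positivity) (by positivity)]
    congr 1
    field_simp
  rw [this]
  ring

lemma measurable_Phi (H : Nice W a b) (K B : ℝ) : Measurable (Phi W K B) :=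
  (continuous_Phi H K B).measurable

/-- integrability of `Φ(v) v^s` on `(0,∞)` -/
lemma integrableOn_Phi_rpow (H : Nice W a b) {K B : ℝ} (hK : 0 < K) (hB : 0 < B) {s : ℝ} (hs : 0 ≤ s) :
    IntegrableOn (fun v => Phi W K B v * ((v ^ s : ℝ) : ℂ)) (Ioi 0) := by
  obtain ⟨n, hn⟩ := exists_nat_gt (s + 1)
  obtain ⟨C, hC, h1⟩ := Phi_rapid H hK hB n
  have h2 : IntegrableOn (fun v : ℝ => C * (1 + |v|) ^ (s - n)) (Ioi 0) := by
    have := (integrable_one_add_norm (E := ℝ) (μ := volume) (r := n - s) (by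
      simp; linarith)).const_mul C
    refine (this.congr (Eventually.of_forall fun v => ?_)).integrableOn
    simp only [Real.norm_eq_abs]
    congr 2
    ring
  refine h2.mono' ?_ ?_
  · apply AEStronglyMeasurable.mul (continuous_Phi H K B).aestronglyMeasurable
    apply Continuous.aestronglyMeasurable
    exact Complex.continuous_ofReal.comp (Real.continuous_rpow_const hs)
  · filter_upwards [ae_restrict_mem measurableSet_Ioi] with v hv
    have hv' : (0 : ℝ) < v := hv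
    rw [norm_mul, Complex.norm_real, Real.norm_of_nonneg (by positivity)]
    have h3 := h1 v
    have h4 : v ^ s ≤ (1 + |v|) ^ s := by
      apply Real.rpow_le_rpow hv'.le _ hs
      rw [abs_of_pos hv']; linarith
    calc ‖Phi W K B v‖ * v ^ s ≤ (C * (1 + |v|) ^ (-(n : ℤ))) * (1 + |v|) ^ s := by gcongr
      _ = C * (1 + |v|) ^ (s - n) := by
        have hp : (0 : ℝ) < 1 + |v| := by positivity
        rw [Real.rpow_sub hp, Real.rpow_natCast, zpow_neg, zpow_natCast]
        field_simp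

end Vale.Agent.P006.KER
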